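import Vale.Agent.P281.H787.TB

/-! P281, theorem KD, block TK: the pulled back tensors on `X`, with poles (explicit form of block
TL; the proof is that of `Vale.Agent.P281.H787.tensorPartL`). -/

open scoped Manifold ContDiff Topology ComplexOrder
open Set Filter Metric Asymptotics Vale.Agent.P272.K

noncomputable section

namespace Vale.Agent.P281.H498

open Vale.Agent.P281 Vale.Agent.P281.MF Vale.Agent.P281.ISO Vale.Agent.P281.H713.SA
open Vale.Agent.P281.H716 Vale.Agent.P299.D Vale.Agent.P281.H787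

set_option linter.unusedSectionVars false

/-- Block TL with explicit tensors. -/
theorem tensL (n p : ℕ) (X Z Y : Type)
    [TopologicalSpace X] [T2Space X]
    [ChartedSpace (Cm n) X] [IsManifold 𝓘(ℂ, Cm n) ω X]
    [TopologicalSpace Z] [ChartedSpace (Cm n) Z] [IsManifold 𝓘(ℂ, Cm n) ω Z]
    [TopologicalSpace Y] [T2Space Y] [ConnectedSpace Y]
    [ChartedSpace (Cm p) Y] [IsManifold 𝓘(ℂ, Cm p) ω Y]
    (j : Z → X) (hj : J.IsBigOpen (Cm n) j) (f : Z → Y)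
    (hf : ContMDiff 𝓘(ℂ, Cm n) 𝓘(ℂ, Cm p) ω f)
    (𝒢 : Set (Set Y)) (h𝒢 : J.IsDivisorial (Cm n) (Cm p) f 𝒢)
    (Δ : Set X → ℝ) (hsnc : J.IsSNC (Cm n) Δ) (Δ' : Set Z → ℝ) (hsnc' : J.IsSNC (Cm n) Δ')
    (hΔ : J.IsRestriction j Δ Δ') (m : ℕ) (K : Set X → ℕ) (hKΔ : ∀ D, (K D : ℝ) = m * Δ D)
    (k : Set Y → ℕ) (hk : ∀ G, (k G : ℝ) ≤ m * J.orbBase' (Cm n) (Cm p) f Δ' G)
    (hkG : ∀ G, k G ≠ 0 → G ∈ 𝒢) (σ : Y → ℂ)
    (hσ : J.IsSection (Cm p) (fun (D : Set Y) z g => J.IsLocalEq (Cm p) D g z) m k σ) :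
    ∃ τ : Ten n (m * p) X, IsTenP (m * p) K τ ∧
      ∀ e z, At e (j z) → f z ∉ ⋃₀ 𝒢 → (∀ D, Δ D ≠ 0 → j z ∉ D) →
        ∀ I, τ e (e (j z)) I = σ (f z) * tT f m (fun z => e (j z)) I z := by
  classical
  obtain ⟨hj0, hj₁, hj₂, hthinj⟩ := hj
  obtain ⟨h𝒢fin, h𝒢pr, 𝒟, h𝒟fin, hpre, hdom⟩ := h𝒢
  have hs := JB.snc hsnc
  have hs' := JB.snc hsnc'
  have hjh : ∀ z, HolM (Cm n) (Cm n) j z := fun z => hj0 z
  have hfh : ∀ z, HolM (Cm n) (Cm p) f z := fun z => hf z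
  have hfcont : Continuous f := hf.continuous
  set S : Set Y := ⋃₀ 𝒢 with hS
  have hSc : IsClosed S := by
    rw [hS, sUnion_eq_biUnion]
    exact h𝒢fin.isClosed_biUnion fun G hG => (h𝒢pr G hG).1
  have h𝒟pr : ∀ D ∈ 𝒟, IsPrimeDivisor (Cm n) D := fun D hD => by
    obtain ⟨G, hG, h1, -⟩ := hdom D hD
    exact h1
  have hthin := thin_of_components (f := f) hfh h𝒟fin h𝒢pr h𝒟pr hpre (fun D hD => by
    obtain ⟨G, hG, h1, h2, h3⟩ := hdom D hD
    exact ⟨G, hG, h2, h3⟩)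
  -- the good set
  set Ω : Set X := {x | ∃ z, j z = x ∧ f z ∉ S} with hΩ
  have hΩj : Ω ⊆ range j := by
    rintro x ⟨z, rfl, -⟩
    exact mem_range_self z
  have hjd : Dense (range j) := by
    intro x
    obtain ⟨h, -, hne, hev⟩ := hthinj x
    rw [mem_closure_iff_frequently]
    intro hcon
    apply hne
    filter_upwards [hcon, hev] with z hz hz'
    exact hz'.1 hz
  have hΩd : Dense Ω := by
    have h1 : Dense {z | f z ∉ S} := by
      intro x
      obtain ⟨h, -, hne, hev⟩ := hthin x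
      rw [mem_closure_iff_frequently]
      intro hcon
      apply hne
      filter_upwards [hcon, hev] with z hz hz'
      exact hz'.1 (not_not.1 hz)
    have h2 : j '' {z | f z ∉ S} = Ω := by
      ext x
      constructor
      · rintro ⟨z, hz, rfl⟩
        exact ⟨z, rfl, hz⟩
      · rintro ⟨z, rfl, hz⟩
        exact ⟨z, hz, rfl⟩
    rw [← h2]
    exact DenseRange.dense_image (f := j) hjd hj₁.continuous h1
  have hkpr : ∀ G, k G ≠ 0 → IsPrimeDivisor (Cm p) G := fun G hG => h𝒢pr G (hkG G hG)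
  have hkS : ∀ G, k G ≠ 0 → G ⊆ S := fun G hG => subset_sUnion_of_mem (hkG G hG)
  -- the boundary on `Z`
  set K' : Set Z → ℕ := fun D' => ⌊(m : ℝ) * Δ' D'⌋₊ with hK'd
  have hK'Δ : ∀ D', (K' D' : ℝ) = m * Δ' D' := by
    intro D'
    by_cases h : Δ' D' = 0
    · simp [hK'd, h]
    · obtain ⟨D, h1, h2⟩ := hΔ.2 D' h
      have h3 : (m : ℝ) * Δ' D' = (K D : ℝ) := by rw [h2, hΔ.1 D h1, hKΔ]
      show ((⌊(m : ℝ) * Δ' D'⌋₊ : ℕ) : ℝ) = _
      rw [h3, Nat.floor_natCast]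
  have hKne : ∀ D, K D ≠ 0 → Δ D ≠ 0 := by
    intro D hD h0
    apply hD
    have := hKΔ D
    rw [h0, mul_zero] at this
    exact_mod_cast this
  have hK'ne : ∀ D', K' D' ≠ 0 → Δ' D' ≠ 0 := by
    intro D' hD' h0
    apply hD'
    have := hK'Δ D'
    rw [h0, mul_zero] at this
    exact_mod_cast this
  have hKK' : ∀ D, K D ≠ 0 → K D = K' (j ⁻¹' D) := by
    intro D hD
    have h1 : (K D : ℝ) = (K' (j ⁻¹' D) : ℝ) := by
      rw [hKΔ, hK'Δ, hΔ.1 D (hKne D hD)]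
    exact_mod_cast h1
  have hK'K : ∀ D', K' D' ≠ 0 → ∃ D, K D ≠ 0 ∧ D' = j ⁻¹' D := by
    intro D' hD'
    obtain ⟨D, h1, h2⟩ := hΔ.2 D' (hK'ne D' hD')
    refine ⟨D, ?_, h2⟩
    intro h0
    apply hD'
    have h3 : (K' D' : ℝ) = (K D : ℝ) := by
      rw [hKΔ, hK'Δ, h2, hΔ.1 D h1]
    rw [h0] at h3
    exact_mod_cast h3
  have hfin' : {D' | K' D' ≠ 0}.Finite := hs'.finite.subset fun D' hD' => hK'ne D' hD'
  have hexp : ∀ (D : Set Z) (G : Set Y) (κ : ℕ), IsPrimeDivisor (Cm n) D →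
      IsPrimeDivisor (Cm p) G → closure (f '' D) = G → 0 < κ →
      (∃ z ∈ D, ∃ e g w, IsLocalEq (Cm n) D e z ∧ IsLocalEq (Cm p) G g (f z) ∧
        HolAt (Cm n) w z ∧ w z ≠ 0 ∧ ∀ᶠ x in 𝓝 z, g (f x) = e x ^ κ * w x) →
      κ * k G ≤ m * (κ - 1) + K' D := by
    intro D G κ hD hG hDG hκ hx
    obtain ⟨h01, h02⟩ := snc01 hs' D
    have h1 := orbBase'_mul_le hκ hG hD hDG hx h01 h02
    have h2 := hk G
    have h3 : (κ : ℝ) * k G ≤ m * (κ - 1) + K' D := by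
      calc (κ : ℝ) * k G ≤ κ * (m * J.orbBase' (Cm n) (Cm p) f Δ' G) :=
            mul_le_mul_of_nonneg_left h2 (Nat.cast_nonneg κ)
        _ = m * (κ * J.orbBase' (Cm n) (Cm p) f Δ' G) := by ring
        _ ≤ m * (κ - 1 + Δ' D) := mul_le_mul_of_nonneg_left h1 (Nat.cast_nonneg m)
        _ = m * (κ - 1) + K' D := by rw [hK'Δ]; ring
    have h4 : ((κ - 1 : ℕ) : ℝ) = (κ : ℝ) - 1 := by
      rw [Nat.cast_sub hκ]; simp
    rw [← h4] at h3
    exact_mod_cast h3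
  -- local extensions, multiplied by the equations of the poles
  have hlocP : ∀ (e : Chart n X), e ∈ atlas (Cm n) X → ∀ I : Fin (m * p) → Fin n,
      ∀ x ∈ e.source, ∀ (T : Finset (Set X)) (g : Set X → X → ℂ), (∀ D, K D ≠ 0 → D ∈ T) →
      (∀ D ∈ T, IsLocalEq (Cm n) D (g D) x) → ∃ Q : X → ℂ, HolV (Cm n) Q x ∧
        ∀ᶠ y in 𝓝 x, y ∈ Ω → hX j f m σ e I y * ∏ D ∈ T, g D y ^ K D = Q y := by
    intro e he I x hx T g hT hg
    have hev : ∀ᶠ y in 𝓝 x, y ∈ e.source ∧ ∀ D ∈ T, IsLocalEq (Cm n) D (g D) y := by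
      refine Filter.Eventually.and (e.open_source.mem_nhds hx) ?_
      rw [Filter.eventually_all_finset]
      exact fun D hD => (hg D hD).eventually
    obtain ⟨U, hUsub, hUo, hxU⟩ := _root_.mem_nhds_iff.1 hev
    refine ext_big (h := fun y => hX j f m σ e I y * ∏ D ∈ T, g D y ^ K D) hj₁ hthinj hΩj hΩd
      hUo ?_ hxU
    rintro x₁ hx₁ ⟨z₀, rfl⟩
    obtain ⟨hx₁s, hx₁g⟩ := hUsub hx₁
    have hAt : At e (j z₀) := ⟨he, hx₁s⟩
    have hch : ∀ D', ∃ g : Z → ℂ, D' ∈ hfin'.toFinset → IsLocalEq (Cm n) D' g z₀ := by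
      intro D'
      by_cases hD : D' ∈ hfin'.toFinset
      · obtain ⟨e', he'⟩ := (hs'.prime D' (hK'ne D' (hfin'.mem_toFinset.1 hD))).2.1 z₀
        exact ⟨e', fun _ => he'⟩
      · exact ⟨0, fun h => absurd h hD⟩
    choose g' hg' using hch
    obtain ⟨Q, hQ, hQe⟩ := tens_localP hfh hSc hthin hkpr hkS hexp hσ (holV_ej hjh hAt)
      (isUnit_ej hjh hj₂ hAt) I (fun D' hD' => hfin'.mem_toFinset.2 hD') hg'
    obtain ⟨u, hu, hue⟩ := poles_emb hjh hKK' hK'K hT hx₁g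
      (T' := hfin'.toFinset) (fun D' hD' => hfin'.mem_toFinset.1 hD') hg'
    set Q' : X → ℂ := fun x => if h : x ∈ range j then Q h.choose * u h.choose else 0 with hQ'
    have hQj : ∀ w, Q' (j w) = Q w * u w := by
      intro w
      have h1 : j w ∈ range j := mem_range_self w
      have h2 : h1.choose = w := hj₁.injective h1.choose_spec
      simp only [hQ']
      rw [dif_pos h1, h2]
    refine ⟨Q', holV_of_comp (hjh z₀) (hj₂ z₀) (by simpa only [hQj] using hQ.mul hu), ?_⟩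
    rw [← hj₁.map_nhds_eq z₀, eventually_map]
    filter_upwards [hQe, hue] with w hw hw2 hwΩ
    obtain ⟨w', hw', hfw⟩ := hwΩ
    have h3 : w' = w := hj₁.injective hw'
    subst h3
    rw [hX_j hj₁, hQj, hw2, ← hw hfw]
    ring
  -- local equations exist
  have hfin : {D | K D ≠ 0}.Finite := hs.finite.subset fun D hD => hKne D hD
  have heqn : ∀ x, ∃ g : Set X → X → ℂ, ∀ D ∈ hfin.toFinset, IsLocalEq (Cm n) D (g D) x := by
    intro x
    have hch : ∀ D, ∃ g : X → ℂ, D ∈ hfin.toFinset → IsLocalEq (Cm n) D g x := by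
      intro D
      by_cases hD : D ∈ hfin.toFinset
      · obtain ⟨e', he'⟩ := (hs.prime D (hKne D (hfin.mem_toFinset.1 hD))).2.1 x
        exact ⟨e', fun _ => he'⟩
      · exact ⟨0, fun h => absurd h hD⟩
    choose g hg using hch
    exact ⟨g, hg⟩
  -- local extensions off the poles
  have hloc : ∀ (e : Chart n X), e ∈ atlas (Cm n) X → ∀ I : Fin (m * p) → Fin n,
      ∀ x ∈ e.source, (∀ D, K D ≠ 0 → x ∉ D) → ∃ Q : X → ℂ, HolV (Cm n) Q x ∧
        ∀ᶠ y in 𝓝 x, y ∈ Ω → hX j f m σ e I y = Q y := by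
    intro e he I x hx hav
    obtain ⟨g, hg⟩ := heqn x
    obtain ⟨Q, hQ, hQe⟩ := hlocP e he I x hx hfin.toFinset g
      (fun D hD => hfin.mem_toFinset.2 hD) hg
    have hPh : HolV (Cm n) (fun y => ∏ D ∈ hfin.toFinset, g D y ^ K D) x :=
      HolV.prod fun D hD => HolV.pow (hg D hD).holAt _
    have hP0 : ∏ D ∈ hfin.toFinset, g D x ^ K D ≠ 0 := by
      refine Finset.prod_ne_zero_iff.2 fun D hD => pow_ne_zero _ fun h0 => ?_
      exact hav D (hfin.mem_toFinset.1 hD) ((hg D hD).mem_iff.2 h0)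
    refine ⟨fun y => Q y / ∏ D ∈ hfin.toFinset, g D y ^ K D, HolV.div hQ hPh hP0, ?_⟩
    filter_upwards [hQe, hPh.continuousAt.eventually_ne hP0] with y h1 h2 hy
    rw [eq_div_iff h2]
    exact h1 hy
  have havoid : ∀ x, (∀ D, K D ≠ 0 → x ∉ D) → ∀ᶠ y in 𝓝 x, ∀ D, K D ≠ 0 → y ∉ D := by
    intro x hav
    have h1 : ∀ᶠ y in 𝓝 x, ∀ D ∈ hfin.toFinset, y ∉ D := by
      rw [Filter.eventually_all_finset]
      intro D hD
      exact ((hs.prime D (hKne D (hfin.mem_toFinset.1 hD))).1.isOpen_compl).mem_nhds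
        (hav D (hfin.mem_toFinset.1 hD))
    filter_upwards [h1] with y hy D hD
    exact hy D (hfin.mem_toFinset.2 hD)
  refine ⟨fun e z I => if e ∈ atlas (Cm n) X then ext (Cm n) Ω (hX j f m σ e I) (e.symm z)
    else 0, ⟨?_, ?_⟩, ?_⟩
  · intro e x h T g hT hg I
    simp only [if_pos h.1]
    obtain ⟨Q, hQ, hQe⟩ := hlocP e h.1 I x h.2 T g hT hg
    refine ⟨fun z => Q (e.symm z), analyticAt_symm h hQ, ?_⟩
    have hgev : ∀ᶠ y in 𝓝 x, ∀ D ∈ T, IsLocalEq (Cm n) D (g D) y := by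
      rw [Filter.eventually_all_finset]
      exact fun D hD => IsLocalEq.eventually (hg D hD)
    have hsymm : Tendsto e.symm (𝓝 (e x)) (𝓝 x) := by
      have := (e.continuousAt_symm (e.map_source h.2)).tendsto
      rwa [e.left_inv h.2] at this
    have hev : ∀ᶠ y in 𝓝 x, ∏ D ∈ T, g D y ^ K D ≠ 0 →
        ext (Cm n) Ω (hX j f m σ e I) y * ∏ D ∈ T, g D y ^ K D = Q y := by
      filter_upwards [hgev, hQ.eventually, hQe.eventually_nhds, e.open_source.mem_nhds h.2] with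
        y h1 h2 h3 h4 h5
      have hav : ∀ D, K D ≠ 0 → y ∉ D := by
        intro D hD hyD
        refine h5 (Finset.prod_eq_zero (hT D hD) ?_)
        rw [(h1 D (hT D hD)).mem_iff.1 hyD, zero_pow hD]
      have h6 := hloc e h.1 I y h4 hav
      have h7 : HolV (Cm n) (fun y => ∏ D ∈ T, g D y ^ K D) y :=
        HolV.prod fun D hD => HolV.pow (h1 D hD).holAt _
      refine eq_of_dense (x := y) (g := fun y => ext (Cm n) Ω (hX j f m σ e I) y *
        ∏ D ∈ T, g D y ^ K D) (h := Q) hΩd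
        ((ext_holV hΩd h6).continuousAt.mul h7.continuousAt) h2.continuousAt ?_
      filter_upwards [h3, havoid y hav, e.open_source.mem_nhds h4] with w hw1 hw2 hw3 hw
      rw [ext_self hΩd (hloc e h.1 I w hw3 hw2) hw]
      exact hw1 hw
    exact hsymm.eventually hev
  · intro e e' x h h' hav I
    simp only [tenPull, if_pos h.1, if_pos h'.1, e.left_inv h.2, e'.left_inv h'.2]
    refine eq_of_dense (x := x) (g := fun y => ext (Cm n) Ω (hX j f m σ e I) y)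
      (h := fun y => ∑ K : Fin (m * p) → Fin n, (∏ a, jacM e e' y (K a) (I a)) *
        ext (Cm n) Ω (hX j f m σ e' K) y) hΩd
      (ext_holV hΩd (hloc e h.1 I x h.2 hav)).continuousAt ?_ ?_
    · refine tendsto_finsetSum _ fun K _ => Tendsto.mul ?_
        (ext_holV hΩd (hloc e' h'.1 K x h'.2 hav)).continuousAt
      exact tendsto_finsetProd _ fun a _ => contAt_jacM h h' (K a) (I a)
    · filter_upwards [e.open_source.mem_nhds h.2, e'.open_source.mem_nhds h'.2,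
        havoid x hav] with y h1 h2 h4 hy
      have h3 : ∀ K, ext (Cm n) Ω (hX j f m σ e' K) y = hX j f m σ e' K y := fun K =>
        ext_self hΩd (hloc e' h'.1 K y h2 h4) hy
      rw [ext_self hΩd (hloc e h.1 I y h1 h4) hy]
      simp only [h3]
      obtain ⟨z, rfl, hz⟩ := hy
      simp only [hX_j hj₁]
      rw [tT_change hjh hj₂ f m (e := e) (e' := e') ⟨h.1, h1⟩ ⟨h'.1, h2⟩ I, Finset.mul_sum]
      exact Finset.sum_congr rfl fun K _ => by ring
  · intro e z h hz hav I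
    simp only [if_pos h.1, e.left_inv h.2]
    have hzΩ : j z ∈ Ω := ⟨z, rfl, hz⟩
    rw [ext_self hΩd (hloc e h.1 I _ h.2 fun D hD => hav D (hKne D hD)) hzΩ, hX_j hj₁]

end Vale.Agent.P281.H498
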