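import Vale.Agent.P281.H498.KD.Cst
import Vale.Agent.P281.H498.KD.TL

/-! P281, theorem KD, block TK: assembly. -/

open scoped Manifold ContDiff Topology ComplexOrder
open Set Filter Metric Asymptotics Vale.Agent.P272.K

noncomputable section

namespace Vale.Agent.P281.H498

open Vale.Agent.P281 Vale.Agent.P281.MF Vale.Agent.P281.ISO Vale.Agent.P281.H713.SA
open Vale.Agent.P281.H716 Vale.Agent.P299.D Vale.Agent.P281.H787 Vale.Agent.P281.H713.KD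
open Vale.Agent.P299.H882 (xi qf)

set_option linter.unusedSectionVars false

variable {n p M μ : ℕ} {X Z Y : Type} [TopologicalSpace X]
  [ChartedSpace (Cm n) X] [IsManifold 𝓘(ℂ, Cm n) ω X]
  [TopologicalSpace Z] [ChartedSpace (Cm n) Z] [IsManifold 𝓘(ℂ, Cm n) ω Z]
  [TopologicalSpace Y] [ChartedSpace (Cm p) Y] [IsManifold 𝓘(ℂ, Cm p) ω Y]
  {j : Z → X} {f : Z → Y} {S : Set Y} {Dv : Fin M → Set X} {K : Fin M → ℕ}
  {r : Fin M → X → ℝ} {R : Fin M → FormM n X} {e : Chart n X} {x : X}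

theorem r_pos (hR : IsBd Dv r R) {i : Fin M} (hx : x ∉ Dv i) : 0 < r i x := by
  have h : At (chartAt (Cm n) x : Chart n X) x := AMP.at_chartAt x
  obtain ⟨g, ψ, hg, hψ⟩ := eqs_exist hR h
  have h1 := hψ.2.self_of_nhds i
  rw [(chartAt (Cm n) x).left_inv h.2] at h1
  rw [h1]
  have h2 : g i (chartAt (Cm n) x x) ≠ 0 := fun h0 => hx ((IsLocalEq.mem_iff (hg.2 i)).2 h0)
  positivity

/-- the points of the dense set -/
def Ob (j : Z → X) (f : Z → Y) (S : Set Y) (Dv : Fin M → Set X) : Set X :=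
  {x | (∃ z, j z = x ∧ f z ∉ S) ∧ ∀ i, x ∉ Dv i}

/-- bound near any point -/
theorem bound_near (hs : Setup n p j f S Dv) (hR : IsBd Dv r R) {χ : FormM n X}
    (hχ : IsKahler χ) {s₀ s₁ : Y → ℂ} {τ₀ τ₁ : Ten n (μ * p) X} (hK₀ : IsTenK Dv K τ₀)
    (hK₁ : IsTenK Dv K τ₁) (hsec₀ : IsSec p μ S s₀) (hsec₁ : IsSec p μ S s₁)
    (hp₀ : IsPull p μ j f S Dv s₀ τ₀) (hp₁ : IsPull p μ j f S Dv s₁ τ₁)
    (hkey₀ : KeyAt Dv K τ₀) (hkey₁ : KeyAt Dv K τ₁) (t₀ : Fin μ) {c : ℝ}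
    {N₀ N₁ : FormM n X → X → ℝ} (hN₀ : IsNorm Dv r K τ₀ c N₀) (hN₁ : IsNorm Dv r K τ₁ c N₁)
    {a : ℝ} (ha : 0 < a) (h : At e x) :
    ∃ C : ℝ, ∀ᶠ x' in 𝓝 x, a ≤ N₀ χ x' + N₁ χ x' →
      ∀ z, j z = x' → f z ∉ S → (∀ i, x' ∉ Dv i) → ∀ i, K i ≠ 0 →
      ∃ l : Fin p → ℂ, qf (χ e (e x')) (fun k => xi (fun y => Real.log (r i y)) e (e x') k -
        ∑ j', l j' * bm n p j f e z (e x') j' k) ≤ C := by
  obtain ⟨g, ψ, hg, hψ⟩ := eqs_exist hR h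
  obtain ⟨a₀, ha₀⟩ := hK₀.num e x h g hg
  obtain ⟨a₁, ha₁⟩ := hK₁.num e x h g hg
  by_cases h0 : ∀ I, a₀ I (e x) = 0
  · by_cases h1 : ∀ I, a₁ I (e x) = 0
    · have e0 : N₀ χ x = 0 := (hN₀.zero χ e x g a₀ hχ h hg ha₀).2 h0
      have e1 : N₁ χ x = 0 := (hN₁.zero χ e x g a₁ hχ h hg ha₁).2 h1
      have hc : ContinuousAt (fun x => N₀ χ x + N₁ χ x) x :=
        ((INT.SmoothFn.continuous (hN₀.smooth χ hχ)).add
          (INT.SmoothFn.continuous (hN₁.smooth χ hχ))).continuousAt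
      refine ⟨0, ?_⟩
      filter_upwards [hc.eventually_lt_const (u := a) (by simp only [e0, e1]; linarith)] with
        x' hx' hx''
      exact absurd hx'' (not_le.2 hx')
    · push Not at h1
      obtain ⟨I₀, hI₀⟩ := h1
      obtain ⟨C, hC⟩ := bound_one hs hR hχ hK₁ hsec₁ hp₁ hkey₁ t₀ h hg ha₁ hψ hI₀
      exact ⟨C, hC.mono fun x' hx' _ => hx'⟩
  · push Not at h0
    obtain ⟨I₀, hI₀⟩ := h0
    obtain ⟨C, hC⟩ := bound_one hs hR hχ hK₀ hsec₀ hp₀ hkey₀ t₀ h hg ha₀ hψ hI₀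
    exact ⟨C, hC.mono fun x' hx' _ => hx'⟩

/-- the uniform constant -/
theorem bound_all [CompactSpace X] (hs : Setup n p j f S Dv) (hR : IsBd Dv r R) {χ : FormM n X}
    (hχ : IsKahler χ) {s₀ s₁ : Y → ℂ} {τ₀ τ₁ : Ten n (μ * p) X} (hK₀ : IsTenK Dv K τ₀)
    (hK₁ : IsTenK Dv K τ₁) (hsec₀ : IsSec p μ S s₀) (hsec₁ : IsSec p μ S s₁)
    (hp₀ : IsPull p μ j f S Dv s₀ τ₀) (hp₁ : IsPull p μ j f S Dv s₁ τ₁)
    (hkey₀ : KeyAt Dv K τ₀) (hkey₁ : KeyAt Dv K τ₁) (t₀ : Fin μ) {c : ℝ}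
    {N₀ N₁ : FormM n X → X → ℝ} (hN₀ : IsNorm Dv r K τ₀ c N₀) (hN₁ : IsNorm Dv r K τ₁ c N₁)
    {a : ℝ} (ha : 0 < a) :
    ∃ C : ℝ, ∀ x : X, ∃ e : Chart n X, At e x ∧ (a ≤ N₀ χ x + N₁ χ x →
      ∀ z, j z = x → f z ∉ S → (∀ i, x ∉ Dv i) → ∀ i, K i ≠ 0 →
      ∃ l : Fin p → ℂ, qf (χ e (e x)) (fun k => xi (fun y => Real.log (r i y)) e (e x) k -
        ∑ j', l j' * bm n p j f e z (e x) j' k) ≤ C) := by
  set P : Set X → Prop := fun U => ∃ C : ℝ, ∀ x ∈ U, ∃ e : Chart n X, At e x ∧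
    (a ≤ N₀ χ x + N₁ χ x → ∀ z, j z = x → f z ∉ S → (∀ i, x ∉ Dv i) → ∀ i, K i ≠ 0 →
      ∃ l : Fin p → ℂ, qf (χ e (e x)) (fun k => xi (fun y => Real.log (r i y)) e (e x) k -
        ∑ j', l j' * bm n p j f e z (e x) j' k) ≤ C) with hP
  have key : P univ := by
    refine isCompact_univ.induction_on (p := P) ⟨0, fun x hx => absurd hx (notMem_empty x)⟩
      ?_ ?_ ?_
    · rintro U V hUV ⟨C, hC⟩
      exact ⟨C, fun x hx => hC x (hUV hx)⟩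
    · rintro U V ⟨C, hC⟩ ⟨C', hC'⟩
      refine ⟨max C C', ?_⟩
      rintro x (hx | hx)
      · obtain ⟨e, h1, h2⟩ := hC x hx
        refine ⟨e, h1, fun k1 z k2 k3 k4 i k5 => ?_⟩
        obtain ⟨l, hl⟩ := h2 k1 z k2 k3 k4 i k5
        exact ⟨l, hl.trans (le_max_left _ _)⟩
      · obtain ⟨e, h1, h2⟩ := hC' x hx
        refine ⟨e, h1, fun k1 z k2 k3 k4 i k5 => ?_⟩
        obtain ⟨l, hl⟩ := h2 k1 z k2 k3 k4 i k5
        exact ⟨l, hl.trans (le_max_right _ _)⟩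
    · intro x _
      have h : At (chartAt (Cm n) x : Chart n X) x := AMP.at_chartAt x
      obtain ⟨C, hC⟩ := bound_near hs hR hχ hK₀ hK₁ hsec₀ hsec₁ hp₀ hp₁ hkey₀ hkey₁ t₀ hN₀ hN₁
        ha h
      have h2 := hC.and ((chartAt (Cm n) x).open_source.mem_nhds h.2)
      obtain ⟨U, hU, hUo, hxU⟩ := _root_.eventually_nhds_iff.1 h2
      refine ⟨U, mem_nhdsWithin_of_mem_nhds (hUo.mem_nhds hxU), C, fun x' hx' => ?_⟩
      exact ⟨chartAt (Cm n) x, ⟨h.1, (hU x' hx').2⟩, (hU x' hx').1⟩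
  obtain ⟨C, hC⟩ := key
  exact ⟨C, fun x => hC x (mem_univ x)⟩

/-- the norm is positive where the numerator does not vanish -/
theorem norm_pos {q : ℕ} {τ : Ten n q X} {c : ℝ} {N : FormM n X → X → ℝ}
    (hN : IsNorm Dv r K τ c N) {G : FormM n X} (hG : IsKahler G) (h : At e x)
    {g : Fin M → Cm n → ℂ} {a : (Fin q → Fin n) → Cm n → ℂ} (hg : IsEqs Dv e x g)
    (ha : IsNum K τ e x g a) : 0 < N G x ↔ ∃ I, a I (e x) ≠ 0 := by
  have h1 := hN.zero G e x g a hG h hg ha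
  have h2 := hN.nonneg G x hG
  constructor
  · intro h3
    by_contra hcon
    push Not at hcon
    exact h3.ne' (h1.2 hcon)
  · rintro ⟨I, hI⟩
    refine lt_of_le_of_ne h2 fun h3 => hI (h1.1 h3.symm I)

/-- the quotient of the norms does not depend on the metric -/
theorem norm_quot (gram : GramPart) (hs : Setup n p j f S Dv) (hR : IsBd Dv r R)
    {s₀ s₁ : Y → ℂ} {τ₀ τ₁ : Ten n (μ * p) X} (hK₀ : IsTenK Dv K τ₀)
    (hK₁ : IsTenK Dv K τ₁) (hsec₀ : IsSec p μ S s₀) (hsec₁ : IsSec p μ S s₁)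
    (hp₀ : IsPull p μ j f S Dv s₀ τ₀) (hp₁ : IsPull p μ j f S Dv s₁ τ₁)
    {N₀ N₁ : FormM n X → X → ℝ} (hN₀ : IsNorm Dv r K τ₀ (((p.factorial : ℝ) ^ μ)⁻¹) N₀)
    (hN₁ : IsNorm Dv r K τ₁ (((p.factorial : ℝ) ^ μ)⁻¹) N₁) {χ G : FormM n X}
    (hχ : IsKahler χ) (hG : IsKahler G) (x : X) : N₁ G x * N₀ χ x = N₁ χ x * N₀ G x := by
  have hc : ∀ {N : FormM n X → X → ℝ} {τ : Ten n (μ * p) X}
      (_ : IsNorm Dv r K τ (((p.factorial : ℝ) ^ μ)⁻¹) N) {w : FormM n X} (_ : IsKahler w),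
      Continuous (N w) := fun h _ hw => INT.SmoothFn.continuous (h.smooth _ hw)
  have h1 : Continuous fun x => N₁ G x * N₀ χ x := (hc hN₁ hG).mul (hc hN₀ hχ)
  have h2 : Continuous fun x => N₁ χ x * N₀ G x := (hc hN₁ hχ).mul (hc hN₀ hG)
  refine congrFun (Continuous.ext_on hs.dense h1 h2 ?_) x
  rintro x ⟨⟨z, rfl, hz⟩, hzD⟩
  have h : At (chartAt (Cm n) (j z) : Chart n X) (j z) := AMP.at_chartAt (j z)
  set e : Chart n X := chartAt (Cm n) (j z) with he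
  obtain ⟨C₀, -, -, hC₀⟩ := exists_coef hs hsec₀ hz
  obtain ⟨C₁, -, -, hC₁⟩ := exists_coef hs hsec₁ hz
  have k1 := (norm_form gram hs hR hK₀ hp₀ hN₀ hC₀ hz hzD h hχ).self_of_nhds
  have k2 := (norm_form gram hs hR hK₀ hp₀ hN₀ hC₀ hz hzD h hG).self_of_nhds
  have k3 := (norm_form gram hs hR hK₁ hp₁ hN₁ hC₁ hz hzD h hχ).self_of_nhds
  have k4 := (norm_form gram hs hR hK₁ hp₁ hN₁ hC₁ hz hzD h hG).self_of_nhds
  rw [e.left_inv h.2] at k1 k2 k3 k4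
  simp only [k1, k2, k3, k4]
  ring

theorem tT_ne (hs : Setup n p j f S Dv) {z : Z} (h : At e (j z))
    (hsurj : Function.Surjective (dM (Cm n) (Cm p) f z)) (μ : ℕ) :
    ∃ I, tT (n := n) (p := p) f μ (fun z => e (j z)) I z ≠ 0 := by
  refine tq_ne_zero μ ?_
  have hu := isUnit_ej hs.hj hs.inj h
  intro y
  obtain ⟨v, hv⟩ := hsurj y
  refine ⟨dV (Cm n) (fun z => e (j z)) z v, ?_⟩
  have h4 : (Ring.inverse (dV (Cm n) (fun z => e (j z)) z)) *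
      (dV (Cm n) (fun z => e (j z)) z) = 1 := Ring.inverse_mul_cancel _ hu
  have h5 := congrArg (fun T : Cm n →L[ℂ] Cm n => T v) h4
  show dM (Cm n) (Cm p) f z (Ring.inverse (dV (Cm n) (fun z => e (j z)) z)
    (dV (Cm n) (fun z => e (j z)) z v)) = y
  have h6 : Ring.inverse (dV (Cm n) (fun z => e (j z)) z)
    (dV (Cm n) (fun z => e (j z)) z v) = v := h5
  rw [h6]
  exact hv

/-- positivity at the good points -/
theorem norm_pos_good (hs : Setup n p j f S Dv) (hR : IsBd Dv r R)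
    {s : Y → ℂ} {τ : Ten n (μ * p) X} (hK : IsTenK Dv K τ)
    (hp : IsPull p μ j f S Dv s τ) {c : ℝ} {N : FormM n X → X → ℝ} (hN : IsNorm Dv r K τ c N)
    {G : FormM n X} (hG : IsKahler G) {z : Z} (hz : f z ∉ S) (hzD : ∀ i, j z ∉ Dv i)
    (hsurj : Function.Surjective (dM (Cm n) (Cm p) f z)) (hs0 : s (f z) ≠ 0) :
    0 < N G (j z) := by
  have h : At (chartAt (Cm n) (j z) : Chart n X) (j z) := AMP.at_chartAt (j z)
  set e : Chart n X := chartAt (Cm n) (j z) with he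
  obtain ⟨g, ψ, hg, hψ⟩ := eqs_exist hR h
  obtain ⟨a, ha⟩ := hK.num e _ h g hg
  obtain ⟨I, hI⟩ := tT_ne hs h hsurj μ
  refine (norm_pos hN hG h hg ha).2 ⟨I, ?_⟩
  have h0 := (hg.ne hzD).self_of_nhds
  rw [← ha.2.self_of_nhds h0 I, hp e z h hz hzD I]
  exact mul_ne_zero (mul_ne_zero hs0 hI) (Finset.prod_ne_zero_iff.2 fun i _ => pow_ne_zero _ (h0 i))

/-- the logarithm of the quotient at the good points -/
theorem log_good (gram : GramPart) (hs : Setup n p j f S Dv) (hR : IsBd Dv r R)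
    {s₀ s₁ : Y → ℂ} {τ₀ τ₁ : Ten n (μ * p) X} (hK₀ : IsTenK Dv K τ₀)
    (hK₁ : IsTenK Dv K τ₁) (hsec₀ : IsSec p μ S s₀) (hsec₁ : IsSec p μ S s₁)
    (hp₀ : IsPull p μ j f S Dv s₀ τ₀) (hp₁ : IsPull p μ j f S Dv s₁ τ₁)
    {N₀ N₁ : FormM n X → X → ℝ} (hN₀ : IsNorm Dv r K τ₀ (((p.factorial : ℝ) ^ μ)⁻¹) N₀)
    (hN₁ : IsNorm Dv r K τ₁ (((p.factorial : ℝ) ^ μ)⁻¹) N₁) {G : FormM n X} (hG : IsKahler G)
    {z : Z} (hz : f z ∉ S) (hzD : ∀ i, j z ∉ Dv i) (h0 : 0 < N₀ G (j z)) (h1 : 0 < N₁ G (j z)) :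
    Real.log (N₁ G (j z)) - Real.log (N₀ G (j z)) =
      Real.log (‖s₁ (f z)‖ ^ 2) - Real.log (‖s₀ (f z)‖ ^ 2) := by
  have h : At (chartAt (Cm n) (j z) : Chart n X) (j z) := AMP.at_chartAt (j z)
  set e : Chart n X := chartAt (Cm n) (j z) with he
  obtain ⟨C₀, -, t0, hC₀⟩ := exists_coef hs hsec₀ hz
  obtain ⟨C₁, -, t1, hC₁⟩ := exists_coef hs hsec₁ hz
  have k1 := (norm_form gram hs hR hK₀ hp₀ hN₀ hC₀ hz hzD h hG).self_of_nhds
  have k2 := (norm_form gram hs hR hK₁ hp₁ hN₁ hC₁ hz hzD h hG).self_of_nhds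
  rw [e.left_inv h.2, jinv_j hs.emb.injective, mul_assoc] at k1 k2
  set P := (∏ i, r i (j z) ^ K i) * gramD (bm n p j f e z (e (j z))) (G e (e (j z))) ^ μ with hP
  rw [k1] at h0
  rw [k2] at h1
  have c0 : ‖C₀ z‖ ^ 2 ≠ 0 := left_ne_zero_of_mul h0.ne'
  have c1 : ‖C₁ z‖ ^ 2 ≠ 0 := left_ne_zero_of_mul h1.ne'
  have p0 : P ≠ 0 := right_ne_zero_of_mul h0.ne'
  have j0 : jac (Cm p) (chartAt (Cm p) (f z) : Y → Cm p) (f z) ^ μ ≠ 0 :=
    pow_ne_zero _ (jac_chart_ne_zero (mem_chart_source (Cm p) (f z)))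
  have j1 : ‖jac (Cm p) (chartAt (Cm p) (f z) : Y → Cm p) (f z) ^ μ‖ ^ 2 ≠ 0 :=
    pow_ne_zero _ (norm_ne_zero_iff.2 j0)
  rw [k1, k2, t0, t1, norm_mul, norm_mul, mul_pow, mul_pow, Real.log_mul c1 p0,
    Real.log_mul c0 p0, Real.log_mul c1 j1, Real.log_mul c0 j1]
  ring

/-- from poles indexed by sets to poles indexed by `Fin M` -/
theorem isTenK_of {q : ℕ} {K' : Set X → ℕ} {τ : Ten n q X} (hinj : Function.Injective Dv)
    (hK' : ∀ D, K' D ≠ 0 → ∃ i, Dv i = D) (h : IsTenP q K' τ) :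
    IsTenK Dv (fun i => K' (Dv i)) τ := by
  classical
  refine ⟨fun e x hx g hg => ?_, fun e e' x h1 h2 h3 I => h.change e e' x h1 h2 ?_ I⟩
  · set T : Finset (Set X) := Finset.univ.image Dv with hT
    set gT : Set X → X → ℂ := fun D => if hD : ∃ i, Dv i = D then fun y => g hD.choose (e y)
      else 0 with hgT
    have hgi : ∀ i, gT (Dv i) = fun y => g i (e y) := by
      intro i
      have hD : ∃ i', Dv i' = Dv i := ⟨i, rfl⟩
      simp only [hgT]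
      rw [dif_pos hD]
      have := hinj hD.choose_spec
      rw [this]
    have h1 : ∀ D, K' D ≠ 0 → D ∈ T := by
      intro D hD
      obtain ⟨i, rfl⟩ := hK' D hD
      exact Finset.mem_image_of_mem _ (Finset.mem_univ i)
    have h2 : ∀ D ∈ T, IsLocalEq (Cm n) D (gT D) x := by
      intro D hD
      obtain ⟨i, -, rfl⟩ := Finset.mem_image.1 hD
      rw [hgi]
      exact hg.2 i
    choose a ha hae using fun I => h.holo e x hx T gT h1 h2 I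
    refine ⟨a, ha, ?_⟩
    filter_upwards [eventually_all.2 hae, e.open_target.mem_nhds (e.map_source hx.2)] with
      z hz hzt hne I
    have h3 : ∏ D ∈ T, gT D (e.symm z) ^ K' D = ∏ i, g i z ^ K' (Dv i) := by
      rw [hT, Finset.prod_image fun i _ i' _ hii => hinj hii]
      refine Finset.prod_congr rfl fun i _ => ?_
      rw [hgi]
      simp only [e.right_inv hzt]
    have h4 := hz I
    rw [h3] at h4
    exact h4 (Finset.prod_ne_zero_iff.2 fun i _ => pow_ne_zero _ (hne i))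
  · intro D hD
    obtain ⟨i, rfl⟩ := hK' D hD
    exact h3 i

end Vale.Agent.P281.H498
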