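import Vale.Agent.P281.H713.KD.Iface
import Vale.Agent.P281.H787.TB

/-! P281, theorem KD, block TK: the rows of the proof, as propositions. -/

open scoped Manifold ContDiff Topology ComplexOrder
open Set Filter Vale.Agent.P281.J Vale.Agent.P272.K Vale.Agent.P272.K.AMP Vale.Agent.P299
open Vale.Agent.P299.D (Ten tenPull FormM)

noncomputable section

namespace Vale.Agent.P281.H498

open Vale.Agent.P281.H713 Vale.Agent.P281.H713.SA Vale.Agent.P281.H716 Vale.Agent.P281.H713.KD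

section defs

variable {n q M : ℕ} {X : Type} [TopologicalSpace X] [ChartedSpace (Cm n) X]

/-- local equations of the divisors, in the chart `e` -/
def IsEqs (Dv : Fin M → Set X) (e : Chart n X) (x : X) (g : Fin M → Cm n → ℂ) : Prop :=
  (∀ i, AnalyticAt ℂ (g i) (e x)) ∧ ∀ i, IsLocalEq (Cm n) (Dv i) (fun y => g i (e y)) x

/-- local weights of the metrics `r i = |g i|² exp (-ψ i)` -/
def IsWts (r : Fin M → X → ℝ) (e : Chart n X) (x : X) (g : Fin M → Cm n → ℂ)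
    (ψ : Fin M → Cm n → ℝ) : Prop :=
  (∀ i, ContDiffAt ℝ ∞ (ψ i) (e x)) ∧
    ∀ᶠ z in 𝓝 (e x), ∀ i, r i (e.symm z) = ‖g i z‖ ^ 2 * Real.exp (-ψ i z)

/-- `a` = numerator of the tensor `τ`: `a = τ ∏ g i ^ K i` -/
def IsNum (K : Fin M → ℕ) (τ : Ten n q X) (e : Chart n X) (x : X) (g : Fin M → Cm n → ℂ)
    (a : (Fin q → Fin n) → Cm n → ℂ) : Prop :=
  (∀ I, AnalyticAt ℂ (a I) (e x)) ∧
    ∀ᶠ z in 𝓝 (e x), (∀ i, g i z ≠ 0) → ∀ I, τ e z I * ∏ i, g i z ^ K i = a I z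

/-- `τ` is a meromorphic section of the bundle of covariant q-tensors with poles of order `≤ K i`
along `Dv i` -/
structure IsTenK (Dv : Fin M → Set X) (K : Fin M → ℕ) (τ : Ten n q X) : Prop where
  num : ∀ e x, At e x → ∀ g, IsEqs Dv e x g → ∃ a, IsNum K τ e x g a
  change : ∀ e e' x, At e x → At e' x → (∀ i, x ∉ Dv i) → ∀ I,
    τ e (e x) I = tenPull (jacM e e' x) (τ e' (e' x)) I

/-- `|a|²`, for the metric `w` -/
def nsq (w : Matrix (Fin n) (Fin n) ℂ) (a : (Fin q → Fin n) → ℂ) : ℝ :=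
  (∑ I, ∑ J, a I * (starRingEnd ℂ) (a J) * ∏ t, w⁻¹ (J t) (I t)).re

/-- `N` is `c |τ|² ∏ r i ^ K i`, for all metrics -/
structure IsNorm (Dv : Fin M → Set X) (r : Fin M → X → ℝ) (K : Fin M → ℕ) (τ : Ten n q X) (c : ℝ)
    (N : FormM n X → X → ℝ) : Prop where
  smooth : ∀ G, IsKahler G → SmoothFn (n := n) (N G)
  nonneg : ∀ G x, IsKahler G → 0 ≤ N G x
  zero : ∀ G e x g a, IsKahler G → At e x → IsEqs Dv e x g → IsNum K τ e x g a →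
    (N G x = 0 ↔ ∀ I, a I (e x) = 0)
  loc : ∀ G e x g ψ a, IsKahler G → At e x → IsEqs Dv e x g → IsWts r e x g ψ →
    IsNum K τ e x g a → ∀ᶠ z in 𝓝 (e x), N G (e.symm z) =
      c * nsq (G e z) (fun I => a I z) * ∏ i, Real.exp (-(K i * ψ i z))

/-- Cramer's expression: it vanishes if `a` is the tensor `(b_1 ∧ ⋯ ∧ b_p)^μ` and `ρ` belongs to the
span of the `b_j` -/
def cram {μ p n : ℕ} (a : (Fin (μ * p) → Fin n) → ℂ) (ρ : Fin n → ℂ) (I : Fin (μ * p) → Fin n)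
    (s : Fin μ) (k : Fin n) : ℂ :=
  a I * ρ k - ∑ c : Fin p, a (Function.update I (finProdFinEquiv (s, c)) k) *
    ρ (I (finProdFinEquiv (s, c)))

/-- the matrix of the rows of `A` -/
def mat {n p : ℕ} (A : Cm n →L[ℂ] Cm p) : Matrix (Fin p) (Fin n) ℂ :=
  Matrix.of fun a k => A (Pi.single k 1) a

end defs

/-- **Row A** (helper219): the norms. -/
def NormPart : Prop := ∀ (n q M : ℕ) (X : Type) [TopologicalSpace X]
  [ChartedSpace (Cm n) X] [IsManifold 𝓘(ℂ, Cm n) ω X]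
  (Dv : Fin M → Set X) (r : Fin M → X → ℝ) (R : Fin M → FormM n X) (_ : IsBd Dv r R)
  (K : Fin M → ℕ) (τ₀ τ₁ : Ten n q X) (_ : IsTenK Dv K τ₀) (_ : IsTenK Dv K τ₁) (c : ℝ)
  (_ : 0 < c), ∃ N₀ N₁ : FormM n X → X → ℝ, IsNorm Dv r K τ₀ c N₀ ∧ IsNorm Dv r K τ₁ c N₁ ∧
    ∀ χ, IsKahler χ → IsHolNorm (n := n) fun x => N₀ χ x + N₁ χ x

/-- **Row A2** (helper219): Cauchy-Binet. -/
def GramPart : Prop := ∀ (n p μ : ℕ) (w : Matrix (Fin n) (Fin n) ℂ) (_ : w.PosDef)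
  (A : Cm n →L[ℂ] Cm p) (c : ℂ), nsq w (fun I => c * tq μ A I) =
    ((p.factorial : ℝ)) ^ μ * (‖c‖ ^ 2 * gramD (mat A) w ^ μ)

/-- **Row B1** (helper787): exact order of the poles. -/
def ExactPart : Prop := ∀ (n q M : ℕ) (X : Type) [TopologicalSpace X] [T2Space X]
  [ChartedSpace (Cm n) X] [IsManifold 𝓘(ℂ, Cm n) ω X]
  (Dv : Fin M → Set X) (_ : Function.Injective Dv) (_ : ∀ i, IsPrime (Cm n) (Dv i))
  (_ : ∀ e x, At e x → ∃ g : Fin M → Cm n → ℂ, IsEqs Dv e x g)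
  (K' : Fin M → ℕ) (τ₀ τ₁ : Ten n q X) (_ : IsTenK Dv K' τ₀) (_ : IsTenK Dv K' τ₁),
  ∃ K : Fin M → ℕ, K ≤ K' ∧ IsTenK Dv K τ₀ ∧ IsTenK Dv K τ₁ ∧
    ∀ i, K i ≠ 0 → ∀ e x, At e x → x ∈ Dv i → ∀ g a₀ a₁, IsEqs Dv e x g →
      IsNum K τ₀ e x g a₀ → IsNum K τ₁ e x g a₁ →
      ¬ ∀ᶠ y in 𝓝 x, y ∈ Dv i → (∀ I, a₀ I (e y) = 0) ∧ ∀ I, a₁ I (e y) = 0

/-- **Row B2** (helper787): divisibility.  Near `x ∈ X`, `a` is a holomorphic tensor which is, off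
the divisors, a multiple of `(df_1 ∧ ⋯ ∧ df_p)^μ`; the divisor `D` is contained in `f⁻¹ (⋃₀ 𝒢)`;
then, `dg` belongs to the span of the `df_j` along `D`. -/
def KeyPart : Prop := ∀ (n p μ : ℕ) (X Z Y : Type)
  [TopologicalSpace X] [T2Space X]
  [ChartedSpace (Cm n) X] [IsManifold 𝓘(ℂ, Cm n) ω X]
  [TopologicalSpace Z] [ChartedSpace (Cm n) Z] [IsManifold 𝓘(ℂ, Cm n) ω Z]
  [TopologicalSpace Y] [T2Space Y] [ConnectedSpace Y]
  [ChartedSpace (Cm p) Y] [IsManifold 𝓘(ℂ, Cm p) ω Y]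
  (j : Z → X) (_ : IsBigOpen (Cm n) j) (f : Z → Y) (_ : ContMDiff 𝓘(ℂ, Cm n) 𝓘(ℂ, Cm p) ω f)
  (𝒢 : Set (Set Y)) (_ : IsDivisorial (Cm n) (Cm p) f 𝒢)
  (D : Set X) (_ : IsPrime (Cm n) D) (_ : IsPrime (Cm n) (j ⁻¹' D))
  (_ : ∀ z, j z ∈ D → f z ∈ ⋃₀ 𝒢) (B : Set X) (_ : IsClosed B) (_ : Dense Bᶜ)
  (e : Chart n X) (x : X) (_ : At e x) (g : Cm n → ℂ) (_ : AnalyticAt ℂ g (e x))
  (_ : IsLocalEq (Cm n) D (fun y => g (e y)) x) (a : (Fin (μ * p) → Fin n) → Cm n → ℂ)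
  (_ : ∀ I, AnalyticAt ℂ (a I) (e x))
  (_ : ∀ᶠ y in 𝓝 x, ∀ z, j z = y → f z ∉ ⋃₀ 𝒢 → y ∉ B → ∃ c : ℂ, ∀ I,
    a I (e y) = c * tT f μ (fun z => e (j z)) I z)
  (I : Fin (μ * p) → Fin n) (s : Fin μ) (k : Fin n), ∃ u : Cm n → ℂ, AnalyticAt ℂ u (e x) ∧
    ∀ᶠ z in 𝓝 (e x), cram (fun I => a I z) (fun l => fderiv ℂ g z (Pi.single l 1)) I s k =
      g z * u z

end Vale.Agent.P281.H498
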