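import Vale.Agent.P281.H498.KD.Loc
import Vale.Agent.P272.K.C2.Wirt

/-! P281, theorem KD, block TK: the uniform constant. -/

open scoped Manifold ContDiff Topology ComplexOrder
open Set Filter Metric Asymptotics Vale.Agent.P272.K

noncomputable section

namespace Vale.Agent.P281.H498

open Vale.Agent.P281 Vale.Agent.P281.MF Vale.Agent.P281.ISO Vale.Agent.P281.H713.SA
open Vale.Agent.P281.H716 Vale.Agent.P299.D Vale.Agent.P281.H787 Vale.Agent.P281.H713.KD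
open Vale.Agent.P299.H882 (xi qf)

set_option linter.unusedSectionVars false

section Wirtinger

variable {n : ℕ} {z : Cm n}

theorem fderiv_real {F : Cm n → ℂ} (h : DifferentiableAt ℂ F z) (v : Cm n) :
    fderiv ℝ F z v = fderiv ℂ F z v := by
  have h1 : HasFDerivAt F ((fderiv ℂ F z).restrictScalars ℝ) z := h.hasFDerivAt.restrictScalars ℝ
  rw [h1.fderiv]
  rfl

theorem single_I (k : Fin n) : (Pi.single k Complex.I : Cm n) = Complex.I • Pi.single k (1 : ℂ) := by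
  rw [← Pi.single_smul]
  simp

theorem dz_hol {F : Cm n → ℂ} (h : DifferentiableAt ℂ F z) (k : Fin n) :
    dz k F z = fderiv ℂ F z (Pi.single k 1) := by
  unfold dz
  rw [fderiv_real h, fderiv_real h, single_I, map_smul, smul_eq_mul, ← mul_assoc, Complex.I_mul_I]
  ring

theorem dzb_hol {F : Cm n → ℂ} (h : DifferentiableAt ℂ F z) (k : Fin n) : dzb k F z = 0 := by
  unfold dzb
  rw [fderiv_real h, fderiv_real h, single_I, map_smul, smul_eq_mul, ← mul_assoc, Complex.I_mul_I]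
  ring

theorem dz_normSq {g : Cm n → ℂ} (hg : DifferentiableAt ℂ g z) (k : Fin n) :
    dz k (fun y => ((‖g y‖ ^ 2 : ℝ) : ℂ)) z =
      fderiv ℂ g z (Pi.single k 1) * (starRingEnd ℂ) (g z) := by
  have hgR : DifferentiableAt ℝ g z := hg.restrictScalars ℝ
  have h1 : (fun y => ((‖g y‖ ^ 2 : ℝ) : ℂ)) = fun y => g y * (starRingEnd ℂ) (g y) := by
    funext y
    rw [Complex.mul_conj, Complex.normSq_eq_norm_sq]
  rw [h1, C2.dz_mul k hgR (C2.differentiableAt_conj hgR), C2.dz_conj k hgR, dzb_hol hg, dz_hol hg]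
  simp

theorem xi_log {X : Type} [TopologicalSpace X] {u : X → ℝ} {e : Chart n X} {g : Cm n → ℂ}
    {ψ : Cm n → ℝ} (hg : AnalyticAt ℂ g z) (h0 : g z ≠ 0) (hψ : ContDiffAt ℝ 1 ψ z)
    (hu : ∀ᶠ y in 𝓝 z, u (e.symm y) = ‖g y‖ ^ 2 * Real.exp (-ψ y)) (k : Fin n) :
    xi (fun x => Real.log (u x)) e z k =
      (g z)⁻¹ * fderiv ℂ g z (Pi.single k 1) - dz k (fun y => (ψ y : ℂ)) z := by
  have hgd : DifferentiableAt ℂ g z := hg.differentiableAt
  have hψd : DifferentiableAt ℝ ψ z := hψ.differentiableAt (by simp)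
  have hn : DifferentiableAt ℝ (fun y => ‖g y‖ ^ 2) z := (hgd.restrictScalars ℝ).norm_sq ℝ
  have hn0 : ‖g z‖ ^ 2 ≠ 0 := pow_ne_zero _ (norm_ne_zero_iff.2 h0)
  have hl : DifferentiableAt ℝ (fun y => Real.log (‖g y‖ ^ 2)) z := hn.log hn0
  have h1 : (fun y => ((Real.log (u (e.symm y)) : ℝ) : ℂ)) =ᶠ[𝓝 z] fun y =>
      ((Real.log (‖g y‖ ^ 2) : ℝ) : ℂ) - (ψ y : ℂ) := by
    filter_upwards [hu, hg.continuousAt.eventually_ne h0] with y h2 h3
    rw [h2, Real.log_mul (pow_ne_zero _ (norm_ne_zero_iff.2 h3)) (Real.exp_ne_zero _),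
      Real.log_exp]
    push_cast
    ring
  show dz k (fun y => ((Real.log (u (e.symm y)) : ℝ) : ℂ)) z = _
  rw [C2.dz_congr k h1, C2.dz_sub k (C2.differentiableAt_ofReal hl)
    (C2.differentiableAt_ofReal hψd), C2.dz_comp_real k (Real.hasDerivAt_log hn0) hn,
    dz_normSq hgd]
  congr 1
  have h4 : (starRingEnd ℂ) (g z) ≠ 0 := by simpa using h0
  have h5 : (((‖g z‖ ^ 2)⁻¹ : ℝ) : ℂ) = (g z)⁻¹ * ((starRingEnd ℂ) (g z))⁻¹ := by
    rw [← mul_inv, Complex.mul_conj, Complex.normSq_eq_norm_sq, Complex.ofReal_inv]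
  rw [h5]
  field_simp

theorem qf_le (A : Matrix (Fin n) (Fin n) ℂ) (ξ : Fin n → ℂ) :
    qf A ξ ≤ ∑ l, ∑ k, ‖A⁻¹ l k‖ * (‖ξ k‖ * ‖ξ l‖) := by
  unfold qf
  refine (Complex.re_le_norm _).trans ?_
  rw [Matrix.trace]
  refine (norm_sum_le _ _).trans (Finset.sum_le_sum fun l _ => ?_)
  rw [Matrix.diag_apply, Matrix.mul_apply]
  refine (norm_sum_le _ _).trans (Finset.sum_le_sum fun k _ => ?_)
  rw [norm_mul, Matrix.vecMulVec_apply, norm_mul, Pi.star_apply, norm_star]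

end Wirtinger

variable {n p M μ : ℕ} {X Z Y : Type} [TopologicalSpace X]
  [ChartedSpace (Cm n) X] [IsManifold 𝓘(ℂ, Cm n) ω X]
  [TopologicalSpace Z] [ChartedSpace (Cm n) Z] [IsManifold 𝓘(ℂ, Cm n) ω Z]
  [TopologicalSpace Y] [ChartedSpace (Cm p) Y] [IsManifold 𝓘(ℂ, Cm p) ω Y]
  {j : Z → X} {f : Z → Y} {S : Set Y} {Dv : Fin M → Set X} {K : Fin M → ℕ}
  {r : Fin M → X → ℝ} {R : Fin M → FormM n X} {e : Chart n X} {x : X}

theorem ev_of_chart (h : At e x) {P : Cm n → Prop} (hP : ∀ᶠ y in 𝓝 (e x), P y) :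
    ∀ᶠ x' in 𝓝 x, P (e x') := (e.continuousAt h.2).tendsto.eventually hP

theorem IsEqs.ev (h : At e x) {g : Fin M → Cm n → ℂ} (hg : IsEqs Dv e x g) :
    ∀ᶠ x' in 𝓝 x, IsEqs Dv e x' g := by
  have h1 : ∀ᶠ x' in 𝓝 x, ∀ i, AnalyticAt ℂ (g i) (e x') :=
    ev_of_chart h (eventually_all.2 fun i => (hg.1 i).eventually_analyticAt)
  have h2 : ∀ᶠ x' in 𝓝 x, ∀ i, IsLocalEq (Cm n) (Dv i) (fun y => g i (e y)) x' :=
    eventually_all.2 fun i => IsLocalEq.eventually (hg.2 i)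
  filter_upwards [h1, h2] with x' h3 h4 using ⟨h3, h4⟩

theorem IsNum.ev {q : ℕ} {τ : Ten n q X} (h : At e x) {g : Fin M → Cm n → ℂ}
    {a : (Fin q → Fin n) → Cm n → ℂ} (ha : IsNum K τ e x g a) :
    ∀ᶠ x' in 𝓝 x, IsNum K τ e x' g a := by
  have h1 : ∀ᶠ x' in 𝓝 x, ∀ I, AnalyticAt ℂ (a I) (e x') :=
    ev_of_chart h (eventually_all.2 fun I => (ha.1 I).eventually_analyticAt)
  filter_upwards [h1, ev_of_chart h ha.2.eventually_nhds] with x' h3 h4 using ⟨h3, h4⟩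

theorem IsWts.ev (h : At e x) {g : Fin M → Cm n → ℂ} {ψ : Fin M → Cm n → ℝ}
    (hw : IsWts r e x g ψ) : ∀ᶠ x' in 𝓝 x, (∀ i, ContDiffAt ℝ 1 (ψ i) (e x')) ∧
      ∀ᶠ z in 𝓝 (e x'), ∀ i, r i (e.symm z) = ‖g i z‖ ^ 2 * Real.exp (-ψ i z) := by
  have h1 : ∀ᶠ x' in 𝓝 x, ∀ i, ContDiffAt ℝ 1 (ψ i) (e x') := by
    refine ev_of_chart h (eventually_all.2 fun i => ?_)
    exact ((hw.1 i).of_le (by norm_cast)).eventually (by simp)
  filter_upwards [h1, ev_of_chart h hw.2.eventually_nhds] with x' h3 h4 using ⟨h3, h4⟩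

/-- divisibility, for the numerators of the tensor `τ` -/
def KeyAt (Dv : Fin M → Set X) (K : Fin M → ℕ) (τ : Ten n (μ * p) X) : Prop :=
  ∀ (e : Chart n X) x g a, At e x → IsEqs Dv e x g → IsNum K τ e x g a → ∀ i, K i ≠ 0 →
    ∀ (I : Fin (μ * p) → Fin n) (s : Fin μ) (k : Fin n), ∃ u : Cm n → ℂ, AnalyticAt ℂ u (e x) ∧
      ∀ᶠ z in 𝓝 (e x), cram (fun I => a I z) (fun l => fderiv ℂ (g i) z (Pi.single l 1)) I s k =
        g i z * u z

/-- bound near a point where the numerator does not vanish -/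
theorem bound_one (hs : Setup n p j f S Dv) (hR : IsBd Dv r R) {χ : FormM n X}
    (hχ : IsKahler χ) {s : Y → ℂ} {τ : Ten n (μ * p) X} (hK : IsTenK Dv K τ)
    (hsec : IsSec p μ S s) (hp : IsPull p μ j f S Dv s τ) (hkey : KeyAt Dv K τ) (s₀ : Fin μ)
    (h : At e x) {g : Fin M → Cm n → ℂ} {a : (Fin (μ * p) → Fin n) → Cm n → ℂ}
    (hg : IsEqs Dv e x g) (ha : IsNum K τ e x g a) {ψ : Fin M → Cm n → ℝ}
    (hψ : IsWts r e x g ψ) {I₀ : Fin (μ * p) → Fin n} (h0 : a I₀ (e x) ≠ 0) :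
    ∃ C : ℝ, ∀ᶠ x' in 𝓝 x, ∀ z, j z = x' → f z ∉ S → (∀ i, x' ∉ Dv i) → ∀ i, K i ≠ 0 →
      ∃ l : Fin p → ℂ, qf (χ e (e x')) (fun k => xi (fun y => Real.log (r i y)) e (e x') k -
        ∑ j', l j' * bm n p j f e z (e x') j' k) ≤ C := by
  have hu : ∀ (i : Fin M) (k : Fin n), ∃ u : Cm n → ℂ, K i ≠ 0 → AnalyticAt ℂ u (e x) ∧
      ∀ᶠ z in 𝓝 (e x), cram (fun I => a I z) (fun l => fderiv ℂ (g i) z (Pi.single l 1)) I₀ s₀ k =
        g i z * u z := by
    intro i k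
    by_cases hi : K i = 0
    · exact ⟨0, fun h' => absurd hi h'⟩
    · obtain ⟨u, h1, h2⟩ := hkey e x g a h hg ha i hi I₀ s₀ k
      exact ⟨u, fun _ => ⟨h1, h2⟩⟩
  choose u hu using hu
  set F : Fin M → Fin n → Cm n → ℂ := fun i k y => (a I₀ y)⁻¹ * (u i k y -
    cram (fun I => a I y) (fun l => dz l (fun z => (ψ i z : ℂ)) y) I₀ s₀ k) with hF
  have hFc : ∀ i k, K i ≠ 0 → ContinuousAt (F i k) (e x) := by
    intro i k hi
    have h1 : ContinuousAt (fun y => (a I₀ y)⁻¹) (e x) := (ha.1 I₀).continuousAt.inv₀ h0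
    have h2 : ∀ l, ContinuousAt (fun y => dz l (fun z => (ψ i z : ℂ)) y) (e x) := fun l =>
      (C2.contDiffAt_dz (m := 0) (k := 1) l (C2.contDiffAt_ofReal
        ((hψ.1 i).of_le (by norm_cast))) (by norm_num)).continuousAt
    have h3 : ContinuousAt (fun y => cram (fun I => a I y)
        (fun l => dz l (fun z => (ψ i z : ℂ)) y) I₀ s₀ k) (e x) := by
      unfold cram
      exact ((ha.1 I₀).continuousAt.mul (h2 k)).sub (tendsto_finsetSum _ fun c _ =>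
        (ha.1 _).continuousAt.mul (h2 _))
    exact h1.mul ((hu i k hi).1.continuousAt.sub h3)
  have hχc : ∀ l k, ContinuousAt (fun y => (χ e y)⁻¹ l k) (e x) := by
    intro l k
    have h1 : C2.MC 1 (χ e) (e x) := fun i j =>
      (hχ.toIsHermitian.smooth e x h i j).of_le (by norm_cast)
    have h2 := C2.MC.inv h1 (hχ.toIsHermitian.posDef e x h).det_pos.ne'
    exact (h2 l k).continuousAt
  set B : Fin n → Fin n → ℝ := fun l k => ‖(χ e (e x))⁻¹ l k‖ + 1 with hB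
  set Q : Fin M → Fin n → ℝ := fun i k => ‖F i k (e x)‖ + 1 with hQ
  have hev1 : ∀ᶠ x' in 𝓝 x, ∀ l k, ‖(χ e (e x'))⁻¹ l k‖ ≤ B l k := by
    refine ev_of_chart h (P := fun y => ∀ l k, ‖(χ e y)⁻¹ l k‖ ≤ B l k)
      (eventually_all.2 fun l => eventually_all.2 fun k => ?_)
    exact ((hχc l k).norm.eventually_lt_const (lt_add_one _)).mono fun y hy => hy.le
  have hev2 : ∀ᶠ x' in 𝓝 x, ∀ i k, K i ≠ 0 → ‖F i k (e x')‖ ≤ Q i k := by
    refine ev_of_chart h (P := fun y => ∀ i k, K i ≠ 0 → ‖F i k y‖ ≤ Q i k)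
      (eventually_all.2 fun i => eventually_all.2 fun k => ?_)
    by_cases hi : K i = 0
    · exact Eventually.of_forall fun y h' => absurd hi h'
    · exact ((hFc i k hi).norm.eventually_lt_const (lt_add_one _)).mono fun y hy _ => hy.le
  have hev3 : ∀ᶠ x' in 𝓝 x, ∀ i k, K i ≠ 0 →
      cram (fun I => a I (e x')) (fun l => fderiv ℂ (g i) (e x') (Pi.single l 1)) I₀ s₀ k =
        g i (e x') * u i k (e x') := by
    refine ev_of_chart h (P := fun y => ∀ i k, K i ≠ 0 →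
      cram (fun I => a I y) (fun l => fderiv ℂ (g i) y (Pi.single l 1)) I₀ s₀ k =
        g i y * u i k y) (eventually_all.2 fun i => eventually_all.2 fun k => ?_)
    by_cases hi : K i = 0
    · exact Eventually.of_forall fun y h' => absurd hi h'
    · exact (hu i k hi).2.mono fun y hy _ => hy
  refine ⟨∑ i, ∑ l, ∑ k, B l k * (Q i k * Q i l), ?_⟩
  filter_upwards [hev1, hev2, hev3, hg.ev h, ha.ev h, hψ.ev h, e.open_source.mem_nhds h.2,
    ev_of_chart h ((ha.1 I₀).continuousAt.eventually_ne h0)] with x' k1 k2 k3 k4 k5 k6 k7 k8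
  rintro z rfl hz hzD i hi
  have hAt : At e (j z) := ⟨h.1, k7⟩
  obtain ⟨C, -, -, hC⟩ := exists_coef hs hsec hz
  have h1 := (num_eq hs hp hC hz hAt k4 k5).self_of_nhds (k4.ne hzD).self_of_nhds
  obtain ⟨l, hl⟩ := exists_lam h1 k8 s₀ (xi (fun y => Real.log (r i y)) e (e (j z)))
  refine ⟨l, ?_⟩
  have h2 : (fun k => xi (fun y => Real.log (r i y)) e (e (j z)) k -
      ∑ j', l j' * bm n p j f e z (e (j z)) j' k) = fun k => F i k (e (j z)) := by
    funext k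
    have h3 := hl k
    have h4 : (xi (fun y => Real.log (r i y)) e (e (j z)) : Fin n → ℂ) = fun k =>
        (g i (e (j z)))⁻¹ * fderiv ℂ (g i) (e (j z)) (Pi.single k 1) +
          (-1 : ℂ) * dz k (fun y => (ψ i y : ℂ)) (e (j z)) := by
      funext k
      rw [xi_log (k4.1 i) ((k4.ne hzD).self_of_nhds i) (k6.1 i) (k6.2.mono fun y hy => hy i)]
      ring
    have h5 : bm n p j f e z (e (j z)) = mat (Am n p j f e z (jinv j z (e.symm (e (j z))))) := rfl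
    rw [h5, h3, h4, cram_add, cram_smul, cram_smul, k3 i k hi]
    have h6 : g i (e (j z)) ≠ 0 := (k4.ne hzD).self_of_nhds i
    rw [inv_mul_cancel_left₀ h6]
    simp only [hF]
    ring
  rw [h2]
  refine (qf_le _ _).trans ?_
  have hB0 : ∀ l k, 0 ≤ B l k := fun l k => by positivity
  have hQ0 : ∀ i k, 0 ≤ Q i k := fun i k => by positivity
  calc ∑ l, ∑ k, ‖(χ e (e (j z)))⁻¹ l k‖ * (‖F i k (e (j z))‖ * ‖F i l (e (j z))‖)
      ≤ ∑ l, ∑ k, B l k * (Q i k * Q i l) := by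
        refine Finset.sum_le_sum fun l _ => Finset.sum_le_sum fun k _ => ?_
        exact mul_le_mul (k1 l k) (mul_le_mul (k2 i k hi) (k2 i l hi) (norm_nonneg _) (hQ0 i k))
          (by positivity) (hB0 l k)
    _ ≤ ∑ i, ∑ l, ∑ k, B l k * (Q i k * Q i l) := by
        refine Finset.single_le_sum (f := fun i => ∑ l, ∑ k, B l k * (Q i k * Q i l))
          (fun i _ => Finset.sum_nonneg fun l _ => Finset.sum_nonneg fun k _ =>
            mul_nonneg (hB0 l k) (mul_nonneg (hQ0 i k) (hQ0 i l))) (Finset.mem_univ i)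

end Vale.Agent.P281.H498
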