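import Vale.Agent.P281.H498.KD.Asm

/-! P281, theorem KD, block TK: assembly. -/

open scoped Manifold ContDiff Topology ComplexOrder
open Set Filter Vale.Agent.P281.J Vale.Agent.P272.K Vale.Agent.P272.K.AMP Vale.Agent.P299
open Vale.Agent.P299.H882 (J xi qf)
open Vale.Agent.P272.K.INT (IsClosedForm)

noncomputable section

namespace Vale.Agent.P281.H498

open Vale.Agent.P281.H713 Vale.Agent.P281.H713.SA Vale.Agent.P281.H716
open Vale.Agent.P281.H713.KD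

/-- **Block TK** without the hypothesis that the coefficients are `< 1`. -/
def TenPartK' : Prop := ∀ (n p M : ℕ) (X Z Y : Type)
  [TopologicalSpace X] [T2Space X] [CompactSpace X] [ConnectedSpace X]
  [ChartedSpace (Cm n) X] [IsManifold 𝓘(ℂ, Cm n) ω X]
  [TopologicalSpace Z] [ChartedSpace (Cm n) Z] [IsManifold 𝓘(ℂ, Cm n) ω Z]
  [TopologicalSpace Y] [T2Space Y] [ConnectedSpace Y]
  [ChartedSpace (Cm p) Y] [IsManifold 𝓘(ℂ, Cm p) ω Y]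
  (χ : D.FormM n X) (_ : IsKahler χ)
  (j : Z → X) (_ : IsBigOpen (Cm n) j) (f : Z → Y) (_ : ContMDiff 𝓘(ℂ, Cm n) 𝓘(ℂ, Cm p) ω f)
  (𝒢 : Set (Set Y)) (_ : IsDivisorial (Cm n) (Cm p) f 𝒢)
  (Δ : Set X → ℝ) (_ : IsSNC (Cm n) Δ) (Δ' : Set Z → ℝ)
  (_ : IsSNC (Cm n) Δ') (_ : IsRestriction j Δ Δ')
  (Dv : Fin M → Set X) (_ : Function.Injective Dv) (_ : ∀ D, Δ D ≠ 0 ↔ ∃ i, Dv i = D)
  (r : Fin M → X → ℝ) (R : Fin M → D.FormM n X) (_ : IsBd Dv r R)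
  (m : ℕ) (_ : 0 < m) (k : Set Y → ℕ)
  (_ : ∀ G, (k G : ℝ) ≤ m * orbBase' (Cm n) (Cm p) f Δ' G) (_ : ∀ G, k G ≠ 0 → G ∈ 𝒢)
  (σ₀ σ₁ : Y → ℂ) (_ : IsSection (Cm p) (fun (D : Set Y) z g => J.IsLocalEq (Cm p) D g z) m k σ₀)
  (_ : IsSection (Cm p) (fun (D : Set Y) z g => J.IsLocalEq (Cm p) D g z) m k σ₁),
  ∃ (μ l : ℕ) (K : Fin M → ℕ) (N₀ N₁ : D.FormM n X → X → ℝ), 0 < l ∧ μ = m * l ∧
    (∀ i, (K i : ℝ) ≤ μ * Δ (Dv i)) ∧
    IsDecPair Dv r χ p μ K N₀ N₁ ∧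
    (∀ g x, IsKahler g → 0 < N₀ g x → 0 < N₁ g x →
      Real.log (N₁ g x) - Real.log (N₀ g x) = Real.log (N₁ χ x) - Real.log (N₀ χ x)) ∧
    ∀ z, f z ∉ ⋃₀ 𝒢 → (∀ i, j z ∉ Dv i) →
      Function.Surjective (mfderiv 𝓘(ℂ, Cm n) 𝓘(ℂ, Cm p) f z) → σ₀ (f z) ≠ 0 → σ₁ (f z) ≠ 0 →
      0 < N₀ χ (j z) ∧ 0 < N₁ χ (j z) ∧ Real.log (N₁ χ (j z)) - Real.log (N₀ χ (j z)) =
        l * (Real.log (‖σ₁ (f z)‖ ^ 2) - Real.log (‖σ₀ (f z)‖ ^ 2))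

end Vale.Agent.P281.H498

namespace Vale.Agent.P281.H498

open Vale.Agent.P281 Vale.Agent.P281.MF Vale.Agent.P281.ISO Vale.Agent.P281.H713.SA
open Vale.Agent.P281.H716 Vale.Agent.P299.D Vale.Agent.P281.H787 Vale.Agent.P281.H713.KD

theorem tenPartK'_of (norm : NormPart) (gram : GramPart) (exact : ExactPart) (key : KeyPart) :
    TenPartK' := by
  classical
  intro n p M X Z Y _ _ _ _ _ _ _ _ _ _ _ _ _ _ χ hχ j hj f hf 𝒢 h𝒢 Δ hsnc Δ' hsnc' hres Dv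
    hinj hDv r R hR m hm k hk hkG σ₀ σ₁ hσ₀ hσ₁
  have hs := JB.snc hsnc
  have hs' := JB.snc hsnc'
  obtain ⟨hj0, hj₁, hj₂, hthinj⟩ := id hj
  obtain ⟨h𝒢fin, h𝒢pr, 𝒟, h𝒟fin, hpre, hdom⟩ := id h𝒢
  have hjh : ∀ z, HolM (Cm n) (Cm n) j z := fun z => hj0 z
  have hfh : ∀ z, HolM (Cm n) (Cm p) f z := fun z => hf z
  set S : Set Y := ⋃₀ 𝒢 with hS
  have hSc : IsClosed S := by
    rw [hS, sUnion_eq_biUnion]
    exact h𝒢fin.isClosed_biUnion fun G hG => (h𝒢pr G hG).1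
  have h𝒟pr : ∀ D ∈ 𝒟, IsPrimeDivisor (Cm n) D := fun D hD => by
    obtain ⟨G, hG, h1, -⟩ := hdom D hD
    exact h1
  have hthin := thin_of_components (f := f) hfh h𝒟fin h𝒢pr h𝒟pr hpre (fun D hD => by
    obtain ⟨G, hG, h1, h2, h3⟩ := hdom D hD
    exact ⟨G, hG, h2, h3⟩)
  have hDpr : ∀ i, IsPrimeDivisor (Cm n) (Dv i) := fun i => hs.prime _ ((hDv _).2 ⟨i, rfl⟩)
  -- density
  have hjd : Dense (range j) := by
    intro x
    obtain ⟨h, -, hne, hev⟩ := hthinj x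
    rw [mem_closure_iff_frequently]
    intro hcon
    apply hne
    filter_upwards [hcon, hev] with z hz hz'
    exact hz'.1 hz
  have hΩd : Dense {x | ∃ z, j z = x ∧ f z ∉ S} := by
    have h1 : Dense {z | f z ∉ S} := by
      intro x
      obtain ⟨h, -, hne, hev⟩ := hthin x
      rw [mem_closure_iff_frequently]
      intro hcon
      apply hne
      filter_upwards [hcon, hev] with z hz hz'
      exact hz'.1 (not_not.1 hz)
    have h2 : j '' {z | f z ∉ S} = {x | ∃ z, j z = x ∧ f z ∉ S} := by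
      ext x
      constructor
      · rintro ⟨z, hz, rfl⟩
        exact ⟨z, rfl, hz⟩
      · rintro ⟨z, rfl, hz⟩
        exact ⟨z, hz, rfl⟩
    rw [← h2]
    exact DenseRange.dense_image (f := j) hjd hj₁.continuous h1
  have hdD : Dense {x : X | ∀ i, x ∉ Dv i} := by
    have h1 : {x : X | ∀ i, x ∉ Dv i} = ⋂ i, (Dv i)ᶜ := by
      ext x
      simp
    rw [h1]
    exact dense_iInter_of_isOpen (fun i => (hDpr i).1.isOpen_compl)
      fun i => dense_compl_prime (hDpr i)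
  have hoD : IsOpen {x : X | ∀ i, x ∉ Dv i} := by
    have h1 : {x : X | ∀ i, x ∉ Dv i} = ⋂ i, (Dv i)ᶜ := by
      ext x
      simp
    rw [h1]
    exact isOpen_iInter_of_finite fun i => (hDpr i).1.isOpen_compl
  have hset : Setup n p j f S Dv :=
    { hj := hjh
      emb := hj₁
      inj := hj₂
      hf := hfh
      closedS := hSc
      dense := hΩd.inter_of_isOpen_right hdD hoD
      closedD := fun i => (hDpr i).1
      denseD := hdD }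
  -- denominators
  obtain ⟨l, hl, K₁, hK₁, -⟩ := exists_denominator hs
  set μ : ℕ := m * l with hμ
  have hμ0 : 0 < μ := Nat.mul_pos hm hl
  set K' : Set X → ℕ := fun D => m * K₁ D with hK'
  have hK'Δ : ∀ D, (K' D : ℝ) = μ * Δ D := by
    intro D
    simp only [hK', hμ]
    push_cast
    rw [hK₁]
    ring
  set k' : Set Y → ℕ := fun G => k G * l with hk'
  have hk'B : ∀ G, (k' G : ℝ) ≤ μ * J.orbBase' (Cm n) (Cm p) f Δ' G := by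
    intro G
    simp only [hk', hμ]
    push_cast
    calc (k G : ℝ) * l ≤ (m * J.orbBase' (Cm n) (Cm p) f Δ' G) * l :=
          mul_le_mul_of_nonneg_right (hk G) (Nat.cast_nonneg l)
      _ = m * l * J.orbBase' (Cm n) (Cm p) f Δ' G := by ring
  have hk'G : ∀ G, k' G ≠ 0 → G ∈ 𝒢 := fun G hG => hkG G (left_ne_zero_of_mul hG)
  set s₀ : Y → ℂ := fun y => σ₀ y ^ l with hs₀
  set s₁ : Y → ℂ := fun y => σ₁ y ^ l with hs₁
  have hsec₀' : IsSection (Cm p) (fun (D : Set Y) z g => IsLocalEq (Cm p) D g z) μ k' s₀ :=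
    isSection_pow hσ₀ l
  have hsec₁' : IsSection (Cm p) (fun (D : Set Y) z g => IsLocalEq (Cm p) D g z) μ k' s₁ :=
    isSection_pow hσ₁ l
  have hsecS : ∀ {s : Y → ℂ}, IsSection (Cm p) (fun (D : Set Y) z g => IsLocalEq (Cm p) D g z) μ
      k' s → IsSec p μ S s := by
    intro s hsec y hy
    refine section_local hsec fun G hG => ?_
    have hG' : G ∈ 𝒢 := hk'G G hG
    obtain ⟨g, hg⟩ := (show IsPrimeDivisor (Cm p) G from h𝒢pr G hG').2.1 y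
    exact ⟨g, hg, fun h0 => hy (mem_sUnion_of_mem (hg.mem_iff.2 h0) hG')⟩
  have hsec₀ := hsecS hsec₀'
  have hsec₁ := hsecS hsec₁'
  -- the tensors
  obtain ⟨τ₀, hτ₀, hpull₀⟩ := tensL n p X Z Y j hj f hf 𝒢 h𝒢 Δ hsnc Δ' hsnc' hres μ K' hK'Δ k'
    hk'B hk'G s₀ hsec₀'
  obtain ⟨τ₁, hτ₁, hpull₁⟩ := tensL n p X Z Y j hj f hf 𝒢 h𝒢 Δ hsnc Δ' hsnc' hres μ K' hK'Δ k'
    hk'B hk'G s₁ hsec₁'
  have hK'D : ∀ D, K' D ≠ 0 → ∃ i, Dv i = D := by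
    intro D hD
    refine (hDv D).1 fun h0 => hD ?_
    have := hK'Δ D
    rw [h0, mul_zero] at this
    exact_mod_cast this
  have hp₀ : IsPull p μ j f S Dv s₀ τ₀ := by
    intro e z h hz hzD I
    refine hpull₀ e z h hz (fun D hD hzD' => ?_) I
    obtain ⟨i, rfl⟩ := (hDv D).1 hD
    exact hzD i hzD'
  have hp₁ : IsPull p μ j f S Dv s₁ τ₁ := by
    intro e z h hz hzD I
    refine hpull₁ e z h hz (fun D hD hzD' => ?_) I
    obtain ⟨i, rfl⟩ := (hDv D).1 hD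
    exact hzD i hzD'
  obtain ⟨K, hKle, hT₀, hT₁, hex⟩ := exact n (μ * p) M X Dv hinj hDpr
    (fun e x hx => by
      obtain ⟨g, -, hg, -⟩ := eqs_exist hR hx
      exact ⟨g, hg⟩) (fun i => K' (Dv i)) τ₀ τ₁ (isTenK_of hinj hK'D hτ₀)
    (isTenK_of hinj hK'D hτ₁)
  obtain ⟨N₀, N₁, hN₀, hN₁, hhol⟩ := norm n (μ * p) M X Dv r R hR K τ₀ τ₁ hT₀ hT₁
    (((p.factorial : ℝ) ^ μ)⁻¹) (by positivity)
  have hover : ∀ i, K i ≠ 0 → ∀ z, j z ∈ Dv i → f z ∈ S := fun i hi z hz =>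
    over_S hset hR hT₀ hT₁ hsec₀ hsec₁ hp₀ hp₁ i hi (hex i hi) hz
  -- divisibility
  have hclB : IsClosed (⋃ i, Dv i) := isClosed_iUnion_of_finite fun i => (hDpr i).1
  have hdB : Dense (⋃ i, Dv i)ᶜ := by
    have h1 : (⋃ i, Dv i)ᶜ = {x : X | ∀ i, x ∉ Dv i} := by
      ext x
      simp
    rw [h1]
    exact hdD
  have hkeyAt : ∀ {s : Y → ℂ} {τ : Ten n (μ * p) X}, IsPull p μ j f S Dv s τ →
      KeyAt Dv K τ := by
    intro s τ hp e x g a h hg ha i hi I t c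
    have hpi : Δ (Dv i) ≠ 0 := (hDv _).2 ⟨i, rfl⟩
    have hpr' : IsPrimeDivisor (Cm n) (j ⁻¹' (Dv i)) :=
      hs'.prime _ (by rw [hres.1 _ hpi]; exact hpi)
    refine key n p μ X Z Y j hj f hf 𝒢 h𝒢 (Dv i) (hDpr i) hpr' (hover i hi) (⋃ i, Dv i) hclB hdB
      e x h (g i) (hg.1 i) (hg.2 i) a ha.1 ?_ I t c
    filter_upwards [ev_of_chart h ha.2, hg.ev h, e.open_source.mem_nhds h.2] with y h1 h2 h3 z hzy
      hzS hzB
    subst hzy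
    have hzD : ∀ i, j z ∉ Dv i := fun i hi => hzB (mem_iUnion_of_mem i hi)
    have h4 := (h2.ne hzD).self_of_nhds
    refine ⟨s (f z) * ∏ i, g i (e (j z)) ^ K i, fun I => ?_⟩
    rw [← h1 h4 I, hp e z ⟨h.1, h3⟩ hzS hzD I]
    ring
  have hkey₀ := hkeyAt hp₀
  have hkey₁ := hkeyAt hp₁
  refine ⟨μ, l, K, N₀, N₁, hl, rfl, fun i => ?_, ⟨?_, ?_, ?_, hhol χ hχ, ?_, ?_⟩, ?_, ?_⟩
  · rw [← hK'Δ (Dv i)]
    exact_mod_cast hKle i
  · exact fun g hg => ⟨hN₀.smooth g hg, hN₁.smooth g hg⟩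
  · exact fun g x hg => ⟨hN₀.nonneg g x hg, hN₁.nonneg g x hg⟩
  · intro G x hG
    have h : At (chartAt (Cm n) x : Chart n X) x := AMP.at_chartAt x
    obtain ⟨g, ψ, hg, hψ⟩ := eqs_exist hR h
    obtain ⟨a₀, ha₀⟩ := hT₀.num _ x h g hg
    obtain ⟨a₁, ha₁⟩ := hT₁.num _ x h g hg
    exact ⟨(norm_pos hN₀ hG h hg ha₀).trans (norm_pos hN₀ hχ h hg ha₀).symm,
      (norm_pos hN₁ hG h hg ha₁).trans (norm_pos hN₁ hχ h hg ha₁).symm⟩
  · intro i hi x hx hcon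
    have h : At (chartAt (Cm n) x : Chart n X) x := AMP.at_chartAt x
    obtain ⟨g, ψ, hg, hψ⟩ := eqs_exist hR h
    obtain ⟨a₀, ha₀⟩ := hT₀.num _ x h g hg
    obtain ⟨a₁, ha₁⟩ := hT₁.num _ x h g hg
    refine hex i hi _ x h hx g a₀ a₁ hg ha₀ ha₁ ?_
    filter_upwards [hcon, hg.ev h, ha₀.ev h, ha₁.ev h,
      (chartAt (Cm n) x).open_source.mem_nhds h.2] with y h1 h2 h3 h4 h5 hy
    have h6 := h1 hy
    have h7 := hN₀.nonneg χ y hχ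
    have h8 := hN₁.nonneg χ y hχ
    have hy' : At (chartAt (Cm n) x : Chart n X) y := ⟨h.1, h5⟩
    exact ⟨(hN₀.zero χ _ y g a₀ hχ hy' h2 h3).1 (by linarith),
      (hN₁.zero χ _ y g a₁ hχ hy' h2 h4).1 (by linarith)⟩
  · refine ⟨{x | (∃ z, j z = x ∧ f z ∉ S) ∧ ∀ i, x ∉ Dv i}, hset.dense, fun a ha => ?_⟩
    obtain ⟨C, hC⟩ := bound_all hset hR hχ hT₀ hT₁ hsec₀ hsec₁ hp₀ hp₁ hkey₀ hkey₁ ⟨0, hμ0⟩
      hN₀ hN₁ ha
    refine ⟨C, ?_⟩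
    rintro x ⟨⟨z, rfl, hz⟩, hzD⟩
    obtain ⟨e, h, hbd⟩ := hC (j z)
    obtain ⟨C₀, hC₀h, -, hC₀⟩ := exists_coef hset hsec₀ hz
    obtain ⟨C₁, hC₁h, -, hC₁⟩ := exists_coef hset hsec₁ hz
    refine ⟨fun i => r_pos hR (hzD i), e, bm n p j f e z, fun y => C₀ (jinv j z (e.symm y)),
      fun y => C₁ (jinv j z (e.symm y)), h, fun a l => bm_analytic hset h a l,
      analytic_jinv hset h hC₀h, analytic_jinv hset h hC₁h, fun G hG => ?_, fun k1 i hi => ?_⟩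
    · filter_upwards [norm_form gram hset hR hT₀ hp₀ hN₀ hC₀ hz hzD h hG,
        norm_form gram hset hR hT₁ hp₁ hN₁ hC₁ hz hzD h hG] with y h1 h2 using ⟨h1, h2⟩
    · exact hbd k1 z rfl hz hzD i hi
  · intro G x hG h0 h1
    have hq := norm_quot gram hset hR hT₀ hT₁ hsec₀ hsec₁ hp₀ hp₁ hN₀ hN₁ hχ hG x
    have h : At (chartAt (Cm n) x : Chart n X) x := AMP.at_chartAt x
    obtain ⟨g, ψ, hg, hψ⟩ := eqs_exist hR h
    obtain ⟨a₀, ha₀⟩ := hT₀.num _ x h g hg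
    obtain ⟨a₁, ha₁⟩ := hT₁.num _ x h g hg
    have h2 : 0 < N₀ χ x := (norm_pos hN₀ hχ h hg ha₀).2 ((norm_pos hN₀ hG h hg ha₀).1 h0)
    have h3 : 0 < N₁ χ x := (norm_pos hN₁ hχ h hg ha₁).2 ((norm_pos hN₁ hG h hg ha₁).1 h1)
    have h4 := congrArg Real.log hq
    rw [Real.log_mul h1.ne' h2.ne', Real.log_mul h3.ne' h0.ne'] at h4
    linarith
  · intro z hz hzD hsurj hz0 hz1
    have hs0 : s₀ (f z) ≠ 0 := pow_ne_zero _ hz0
    have hs1 : s₁ (f z) ≠ 0 := pow_ne_zero _ hz1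
    have h0 := norm_pos_good hset hR hT₀ hp₀ hN₀ hχ hz hzD hsurj hs0
    have h1 := norm_pos_good hset hR hT₁ hp₁ hN₁ hχ hz hzD hsurj hs1
    refine ⟨h0, h1, ?_⟩
    rw [log_good gram hset hR hT₀ hT₁ hsec₀ hsec₁ hp₀ hp₁ hN₀ hN₁ hχ hz hzD h0 h1]
    have h2 : ∀ t : ℂ, Real.log (‖t ^ l‖ ^ 2) = l * Real.log (‖t‖ ^ 2) := by
      intro t
      rw [norm_pow, ← pow_mul, mul_comm l 2, pow_mul, Real.log_pow]
    simp only [hs₀, hs₁]
    rw [h2, h2]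
    ring

/-- **Block TK** from its rows. -/
theorem tenPartK_of (norm : NormPart) (gram : GramPart) (exact : ExactPart) (key : KeyPart) :
    TenPartK := by
  intro n p M X Z Y _ _ _ _ _ _ _ _ _ _ _ _ _ _ χ hχ j hj f hf 𝒢 h𝒢 Δ hsnc _ Δ' hsnc' hres Dv
    hinj hDv r R hR m hm k hk hkG σ₀ σ₁ hσ₀ hσ₁ _
  obtain ⟨μ, l, K, N₀, N₁, h1, -, h2⟩ := tenPartK'_of norm gram exact key n p M X Z Y χ hχ j hj f
    hf 𝒢 h𝒢 Δ hsnc Δ' hsnc' hres Dv hinj hDv r R hR m hm k hk hkG σ₀ σ₁ hσ₀ hσ₁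
  exact ⟨μ, l, K, N₀, N₁, h1, h2⟩

end Vale.Agent.P281.H498
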