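import Vale.Agent.P281.H498.KD.Loc

/-! P281, theorem KD, block TK: the Gram determinant (Cauchy-Binet). -/

open scoped Manifold ContDiff Topology ComplexOrder
open Set Filter Vale.Agent.P272.K

noncomputable section

namespace Vale.Agent.P281.H498

open Vale.Agent.P281.H713.SA Vale.Agent.P281.H713.KD

variable {n p : ℕ}

theorem det_mul_sum (B : Matrix (Fin p) (Fin n) ℂ) (N : Matrix (Fin n) (Fin p) ℂ) :
    ∑ L : Fin p → Fin n, (B.submatrix id L).det * ∏ c, N (L c) c = (B * N).det := by
  rw [Matrix.det_apply']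
  have h1 : ∀ σ : Equiv.Perm (Fin p), ∏ c, (B * N) (σ c) c =
      ∑ L : Fin p → Fin n, ∏ c, B (σ c) (L c) * N (L c) c := by
    intro σ
    simp only [Matrix.mul_apply]
    rw [Finset.prod_univ_sum, Fintype.piFinset_univ]
  simp only [h1, Finset.mul_sum]
  rw [Finset.sum_comm]
  refine Finset.sum_congr rfl fun L _ => ?_
  rw [Matrix.det_apply', Finset.sum_mul]
  refine Finset.sum_congr rfl fun σ _ => ?_
  simp only [Matrix.submatrix_apply, id, Finset.prod_mul_distrib]
  ring

theorem block_sum (B : Matrix (Fin p) (Fin n) ℂ) (H : Matrix (Fin n) (Fin n) ℂ) :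
    ∑ L : Fin p → Fin n, ∑ L' : Fin p → Fin n, (B.submatrix id L).det *
      (starRingEnd ℂ) (B.submatrix id L').det * ∏ c, H (L c) (L' c) =
      (p.factorial : ℂ) * (B * H * B.conjTranspose).det := by
  rw [Finset.sum_comm]
  have h1 : ∀ L' : Fin p → Fin n, ∑ L : Fin p → Fin n, (B.submatrix id L).det *
      (starRingEnd ℂ) (B.submatrix id L').det * ∏ c, H (L c) (L' c) =
      (starRingEnd ℂ) (B.submatrix id L').det * ((B * H).submatrix id L').det := by
    intro L'
    have h2 : ((B * H).submatrix id L') = B * Matrix.of fun k c => H k (L' c) := by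
      ext a c
      simp [Matrix.mul_apply]
    rw [h2, ← det_mul_sum, Finset.mul_sum]
    refine Finset.sum_congr rfl fun L _ => ?_
    simp only [Matrix.of_apply]
    ring
  rw [Finset.sum_congr rfl fun L' _ => h1 L']
  have h3 : ∀ L' : Fin p → Fin n, (starRingEnd ℂ) (B.submatrix id L').det *
      ((B * H).submatrix id L').det = ∑ σ : Equiv.Perm (Fin p), ((Equiv.Perm.sign σ : ℤ) : ℂ) *
        (((B * H).submatrix id L').det * ∏ c, (Matrix.of fun k c => B.conjTranspose k (σ c) :
          Matrix (Fin n) (Fin p) ℂ) (L' c) c) := by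
    intro L'
    rw [Matrix.det_apply', map_sum, Finset.sum_mul]
    refine Finset.sum_congr rfl fun σ _ => ?_
    rw [map_mul, map_prod]
    simp only [Matrix.submatrix_apply, id, Matrix.of_apply, Matrix.conjTranspose_apply,
      map_intCast, RCLike.star_def]
    ring
  rw [Finset.sum_congr rfl fun L' _ => h3 L', Finset.sum_comm]
  have h4 : ∀ σ : Equiv.Perm (Fin p), ∑ L' : Fin p → Fin n, ((Equiv.Perm.sign σ : ℤ) : ℂ) *
        (((B * H).submatrix id L').det * ∏ c, (Matrix.of fun k c => B.conjTranspose k (σ c) :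
          Matrix (Fin n) (Fin p) ℂ) (L' c) c) = (B * H * B.conjTranspose).det := by
    intro σ
    rw [← Finset.mul_sum, det_mul_sum]
    have h5 : (B * H) * (Matrix.of fun k c => B.conjTranspose k (σ c) :
        Matrix (Fin n) (Fin p) ℂ) = (B * H * B.conjTranspose).submatrix id σ := by
      ext a c
      simp [Matrix.mul_apply]
    rw [h5, Matrix.det_permute', ← mul_assoc]
    have h6 : ((Equiv.Perm.sign σ : ℤ) : ℂ) * ((Equiv.Perm.sign σ : ℤ) : ℂ) = 1 := by
      rcases Int.units_eq_one_or (Equiv.Perm.sign σ) with h | h <;> simp [h]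
    rw [h6, one_mul]
  rw [Finset.sum_congr rfl fun σ _ => h4 σ, Finset.sum_const, Finset.card_univ, Fintype.card_perm,
    Fintype.card_fin, nsmul_eq_mul]

theorem mK_eq (A : Cm n →L[ℂ] Cm p) (L : Fin p → Fin n) : mK A L = (mat A).submatrix id L := rfl

theorem sum_tq (μ : ℕ) (A : Cm n →L[ℂ] Cm p) (H : Matrix (Fin n) (Fin n) ℂ) :
    ∑ I, ∑ J, tq μ A I * (starRingEnd ℂ) (tq μ A J) * ∏ t, H (I t) (J t) =
      ((p.factorial : ℂ) * (mat A * H * (mat A).conjTranspose).det) ^ μ := by
  rw [← Equiv.sum_comp (eqI μ p n)]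
  have h1 : ∀ L : Fin μ → Fin p → Fin n, ∑ J, tq μ A (eqI μ p n L) *
      (starRingEnd ℂ) (tq μ A J) * ∏ t, H (eqI μ p n L t) (J t) =
      ∑ L' : Fin μ → Fin p → Fin n, ∏ r, ((mat A).submatrix id (L r)).det *
        (starRingEnd ℂ) ((mat A).submatrix id (L' r)).det * ∏ c, H (L r c) (L' r c) := by
    intro L
    rw [← Equiv.sum_comp (eqI μ p n)]
    refine Finset.sum_congr rfl fun L' _ => ?_
    have h2 : ∏ t, H (eqI μ p n L t) (eqI μ p n L' t) = ∏ r, ∏ c, H (L r c) (L' r c) := by
      rw [← Equiv.prod_comp finProdFinEquiv, Fintype.prod_prod_type]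
      simp only [eqI_apply]
    have h3 : ∀ L : Fin μ → Fin p → Fin n, tq μ A (eqI μ p n L) =
        ∏ r, ((mat A).submatrix id (L r)).det := by
      intro L
      unfold tq
      simp only [eqI_apply, mK_eq]
    rw [h2, h3, h3, map_prod, ← Finset.prod_mul_distrib, ← Finset.prod_mul_distrib]
  rw [Finset.sum_congr rfl fun L _ => h1 L]
  have h4 : ∀ L : Fin μ → Fin p → Fin n, ∑ L' : Fin μ → Fin p → Fin n,
      ∏ r, (((mat A).submatrix id (L r)).det *
        (starRingEnd ℂ) ((mat A).submatrix id (L' r)).det * ∏ c, H (L r c) (L' r c)) =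
      ∏ r, ∑ L' : Fin p → Fin n, (((mat A).submatrix id (L r)).det *
        (starRingEnd ℂ) ((mat A).submatrix id L').det * ∏ c, H (L r c) (L' c)) := by
    intro L
    rw [Finset.prod_univ_sum, Fintype.piFinset_univ]
  rw [Finset.sum_congr rfl fun L _ => h4 L]
  have h5 : ∑ L : Fin μ → Fin p → Fin n, ∏ r, ∑ L' : Fin p → Fin n,
      (((mat A).submatrix id (L r)).det *
        (starRingEnd ℂ) ((mat A).submatrix id L').det * ∏ c, H (L r c) (L' c)) =
      ∏ r : Fin μ, ∑ L : Fin p → Fin n, ∑ L' : Fin p → Fin n,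
      (((mat A).submatrix id L).det *
        (starRingEnd ℂ) ((mat A).submatrix id L').det * ∏ c, H (L c) (L' c)) := by
    rw [Finset.prod_univ_sum, Fintype.piFinset_univ]
  rw [h5, Finset.prod_const, Finset.card_univ, Fintype.card_fin, block_sum]

/-- **Row A2**. -/
theorem gramPart : GramPart := by
  intro n p μ w hw A c
  rw [nsq_smul]
  have h1 : nsq w (tq μ A) = (((p.factorial : ℂ) *
      (mat A * (w⁻¹).transpose * (mat A).conjTranspose).det) ^ μ).re := by
    rw [← sum_tq]
    rfl
  have hH : ((w⁻¹).transpose).IsHermitian := hw.inv.isHermitian.transpose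
  have h2 : (mat A * (w⁻¹).transpose * (mat A).conjTranspose).IsHermitian :=
    Matrix.isHermitian_mul_mul_conjTranspose _ hH
  have h3 : (starRingEnd ℂ) (mat A * (w⁻¹).transpose * (mat A).conjTranspose).det =
      (mat A * (w⁻¹).transpose * (mat A).conjTranspose).det := by
    have := Matrix.det_conjTranspose (M := mat A * (w⁻¹).transpose * (mat A).conjTranspose)
    rw [h2.eq] at this
    exact this.symm
  have h4 : (mat A * (w⁻¹).transpose * (mat A).conjTranspose).det =
      ((gramD (mat A) w : ℝ) : ℂ) := (Complex.conj_eq_iff_re.1 h3).symm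
  have h5 : nsq w (fun I => tq μ A I) = ((p.factorial : ℝ)) ^ μ * gramD (mat A) w ^ μ := by
    show nsq w (tq μ A) = _
    rw [h1, h4, ← mul_pow]
    have h6 : (p.factorial : ℂ) * ((gramD (mat A) w : ℝ) : ℂ) =
        (((p.factorial : ℝ) * gramD (mat A) w : ℝ) : ℂ) := by push_cast; rfl
    rw [h6, ← Complex.ofReal_pow, Complex.ofReal_re]
  rw [h5]
  ring

end Vale.Agent.P281.H498
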