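import Vale.Agent.P281.H498.KD.Cst
import Vale.Agent.P299.H954.TenZero
import Mathlib.Analysis.Matrix.Order

/-! P281, theorem KD, block TK: the sum of the norms is locally the norm of a vector of holomorphic
functions. -/

open scoped Manifold ContDiff Topology ComplexOrder Kronecker
open Set Filter Vale.Agent.P272.K

noncomputable section

namespace Vale.Agent.P281.H498

open Vale.Agent.P281 Vale.Agent.P281.H713.SA Vale.Agent.P281.H713.KD Vale.Agent.P299.D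
open Vale.Agent.P299.H954 (tp dual tp_posDef MC_tp MC_dual)

variable {n q M : ℕ} {X : Type} [TopologicalSpace X]
  [ChartedSpace (Cm n) X] [IsManifold 𝓘(ℂ, Cm n) ω X]
  {Dv : Fin M → Set X} {K : Fin M → ℕ} {r : Fin M → X → ℝ} {R : Fin M → FormM n X}

/-- `|a|²` through the matrix `tp q` -/
theorem nsq_eq (w : Cm n → Matrix (Fin n) (Fin n) ℂ) (z : Cm n) (a : (Fin q → Fin n) → ℂ) :
    nsq (w z) a = (∑ I, ∑ J, a I * (starRingEnd ℂ) (a J) * tp q (dual w z) I J).re := rfl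

/-- the components of the two tensors -/
def comp2 {ι : Type} (a₀ a₁ : ι → Cm n → ℂ) (b : Fin 2 × ι) : Cm n → ℂ :=
  if b.1 = 0 then a₀ b.2 else a₁ b.2

theorem sum_comp2 {ι : Type} [Fintype ι] (a₀ a₁ : ι → Cm n → ℂ) (A : Matrix ι ι ℂ)
    (z : Cm n) : ∑ b, ∑ c, comp2 a₀ a₁ b z * (starRingEnd ℂ) (comp2 a₀ a₁ c z) *
      ((1 : Matrix (Fin 2) (Fin 2) ℂ) ⊗ₖ A) b c =
      ∑ I, ∑ J, a₀ I z * (starRingEnd ℂ) (a₀ J z) * A I J +
      ∑ I, ∑ J, a₁ I z * (starRingEnd ℂ) (a₁ J z) * A I J := by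
  simp only [Fintype.sum_prod_type, Fin.sum_univ_two, comp2, Matrix.kroneckerMap_apply,
    if_true, Matrix.one_apply_eq, one_mul]
  have h01 : (1 : Matrix (Fin 2) (Fin 2) ℂ) 0 1 = 0 := Matrix.one_apply_ne (by decide)
  have h10 : (1 : Matrix (Fin 2) (Fin 2) ℂ) 1 0 = 0 := Matrix.one_apply_ne (by decide)
  simp [h01, h10]

theorem holNorm_of {τ₀ τ₁ : Ten n q X} {c : ℝ} {N₀ N₁ : FormM n X → X → ℝ}
    (hR : IsBd Dv r R) (hK₀ : IsTenK Dv K τ₀) (hK₁ : IsTenK Dv K τ₁) (hc : 0 < c)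
    (hN₀ : IsNorm Dv r K τ₀ c N₀) (hN₁ : IsNorm Dv r K τ₁ c N₁) {χ : FormM n X}
    (hχ : IsKahler χ) : IsHolNorm (n := n) fun x => N₀ χ x + N₁ χ x := by
  intro e x h
  obtain ⟨g, ψ, hg, hψ⟩ := eqs_exist hR h
  obtain ⟨a₀, ha₀⟩ := hK₀.num e x h g hg
  obtain ⟨a₁, ha₁⟩ := hK₁.num e x h g hg
  set ι := Fin 2 × (Fin q → Fin n) with hι
  set E : ι ≃ Fin (Fintype.card ι) := Fintype.equivFin ι with hE
  set κ : Cm n → ℝ := fun z => c * ∏ i, Real.exp (-(K i * ψ i z)) with hκ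
  set A : Cm n → Matrix (Fin q → Fin n) (Fin q → Fin n) ℂ := fun z =>
    ((κ z : ℝ) : ℂ) • tp q (dual (χ e) z) with hA
  have hκ0 : ∀ z, 0 < κ z := fun z => mul_pos hc (Finset.prod_pos fun i _ => Real.exp_pos _)
  have hwC : C2.MC ∞ (χ e) (e x) := fun i j => hχ.toIsHermitian.smooth e x h i j
  have hdC : C2.MC ∞ (fun z => tp q (dual (χ e) z)) (e x) :=
    MC_tp q (MC_dual hwC (hχ.toIsHermitian.posDef e x h).det_pos.ne')
  have hκC : ContDiffAt ℝ ∞ κ (e x) :=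
    contDiffAt_const.mul (contDiffAt_prod fun i _ =>
      (contDiffAt_const.mul (hψ.1 i)).neg.exp)
  have hAC : ∀ I J, ContDiffAt ℝ ∞ (fun z => A z I J) (e x) := fun I J =>
    (Complex.ofRealCLM.contDiff.contDiffAt.comp (e x) hκC).mul (hdC I J)
  have hApos : ∀ z, (χ e z).PosDef → (A z).PosDef := by
    intro z hz
    have h1 : (tp q (dual (χ e) z)).PosDef := tp_posDef q hz.inv.transpose
    exact h1.smul (by exact_mod_cast hκ0 z)
  have hHpos : ∀ z, (χ e z).PosDef →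
      (((1 : Matrix (Fin 2) (Fin 2) ℂ) ⊗ₖ A z).submatrix E.symm E.symm).PosDef := by
    intro z hz
    exact (Matrix.PosDef.kronecker Matrix.PosDef.one (hApos z hz)).submatrix E.symm.injective
  refine ⟨Fintype.card ι, fun b => comp2 a₀ a₁ (E.symm b), fun z =>
    ((1 : Matrix (Fin 2) (Fin 2) ℂ) ⊗ₖ A z).submatrix E.symm E.symm, fun b => ?_, fun b c => ?_,
    hHpos _ (hχ.toIsHermitian.posDef e x h), ?_⟩
  · by_cases h2 : (E.symm b).1 = 0
    · simp only [comp2, if_pos h2]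
      exact ha₀.1 _
    · simp only [comp2, if_neg h2]
      exact ha₁.1 _
  · exact contDiffAt_const.mul (hAC _ _)
  · filter_upwards [hN₀.loc χ e x g ψ a₀ hχ h hg hψ ha₀, hN₁.loc χ e x g ψ a₁ hχ h hg hψ ha₁,
      H954ev h] with z h1 h2 h3
    have hpos : (χ e z).PosDef := by
      have := hχ.toIsHermitian.posDef e _ h3.1
      rwa [h3.2] at this
    refine ⟨(hHpos z hpos).isHermitian, ?_⟩
    have h4 : ∑ b, ∑ c, comp2 a₀ a₁ (E.symm b) z * (starRingEnd ℂ) (comp2 a₀ a₁ (E.symm c) z) *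
        (((1 : Matrix (Fin 2) (Fin 2) ℂ) ⊗ₖ A z).submatrix E.symm E.symm) b c =
        ∑ b, ∑ c, comp2 a₀ a₁ b z * (starRingEnd ℂ) (comp2 a₀ a₁ c z) *
          ((1 : Matrix (Fin 2) (Fin 2) ℂ) ⊗ₖ A z) b c := by
      rw [← Equiv.sum_comp E]
      refine Finset.sum_congr rfl fun b _ => ?_
      rw [← Equiv.sum_comp E]
      refine Finset.sum_congr rfl fun c _ => ?_
      simp only [Matrix.submatrix_apply, Equiv.symm_apply_apply]
    have h5 : ∀ a : (Fin q → Fin n) → Cm n → ℂ,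
        ∑ I, ∑ J, a I z * (starRingEnd ℂ) (a J z) * A z I J =
        ((κ z : ℝ) : ℂ) * ∑ I, ∑ J, a I z * (starRingEnd ℂ) (a J z) * tp q (dual (χ e) z) I J := by
      intro a
      rw [Finset.mul_sum]
      refine Finset.sum_congr rfl fun I _ => ?_
      rw [Finset.mul_sum]
      refine Finset.sum_congr rfl fun J _ => ?_
      simp only [hA, Matrix.smul_apply, smul_eq_mul]
      ring
    rw [h4, sum_comp2, h5, h5, Complex.add_re, Complex.re_ofReal_mul, Complex.re_ofReal_mul,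
      ← nsq_eq, ← nsq_eq]
    show N₀ χ (e.symm z) + N₁ χ (e.symm z) = _
    rw [h1, h2]
    simp only [hκ]
    ring

end Vale.Agent.P281.H498
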