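import Vale.Agent.P281.H498.KD.TKI

/-! P281, theorem KD, block TK: Cramer's rule for the tensors `tq`. -/

open scoped Manifold ContDiff Topology ComplexOrder
open Set Filter Vale.Agent.P272.K

noncomputable section

namespace Vale.Agent.P281.H498

open Vale.Agent.P281.H713.SA

/-- the `s`-th block of the multiindex `I` -/
def blk {μ p n : ℕ} (I : Fin (μ * p) → Fin n) (s : Fin μ) : Fin p → Fin n :=
  fun c => I (finProdFinEquiv (s, c))

theorem blk_update_self {μ p n : ℕ} (I : Fin (μ * p) → Fin n) (s : Fin μ) (c : Fin p) (k : Fin n) :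
    blk (Function.update I (finProdFinEquiv (s, c)) k) s = Function.update (blk I s) c k := by
  funext c'
  unfold blk
  by_cases h : c' = c
  · subst h
    simp
  · rw [Function.update_of_ne h, Function.update_of_ne]
    intro h'
    exact h (Prod.ext_iff.1 (finProdFinEquiv.injective h')).2

theorem blk_update_ne {μ p n : ℕ} (I : Fin (μ * p) → Fin n) {s s' : Fin μ} (hs : s' ≠ s)
    (c : Fin p) (k : Fin n) :
    blk (Function.update I (finProdFinEquiv (s, c)) k) s' = blk I s' := by
  funext c'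
  unfold blk
  rw [Function.update_of_ne]
  intro h'
  exact hs (Prod.ext_iff.1 (finProdFinEquiv.injective h')).1

theorem tq_eq_mul {μ p n : ℕ} (A : Cm n →L[ℂ] Cm p) (I : Fin (μ * p) → Fin n) (s : Fin μ) :
    tq μ A I = (∏ r ∈ Finset.univ.erase s, (mK A (blk I r)).det) * (mK A (blk I s)).det := by
  unfold tq
  rw [← Finset.prod_erase_mul Finset.univ _ (Finset.mem_univ s)]
  rfl

theorem tq_update {μ p n : ℕ} (A : Cm n →L[ℂ] Cm p) (I : Fin (μ * p) → Fin n) (s : Fin μ)
    (c : Fin p) (k : Fin n) :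
    tq μ A (Function.update I (finProdFinEquiv (s, c)) k) =
      (∏ r ∈ Finset.univ.erase s, (mK A (blk I r)).det) *
        (mK A (Function.update (blk I s) c k)).det := by
  rw [tq_eq_mul A _ s, blk_update_self]
  congr 1
  refine Finset.prod_congr rfl fun r hr => ?_
  rw [blk_update_ne I (Finset.ne_of_mem_erase hr)]

theorem mK_update {p n : ℕ} (A : Cm n →L[ℂ] Cm p) (L : Fin p → Fin n) (c : Fin p) (k : Fin n) :
    mK A (Function.update L c k) = (mK A L).updateCol c (A (Pi.single k 1)) := by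
  ext a c'
  by_cases h : c' = c
  · subst h
    simp [mK]
  · simp [mK, Matrix.updateCol_ne h, Function.update_of_ne h]

/-- Cramer's rule -/
theorem cramer_col {p n : ℕ} (A : Cm n →L[ℂ] Cm p) (L : Fin p → Fin n) (k : Fin n) (a : Fin p) :
    ∑ c, (mK A (Function.update L c k)).det * mK A L a c = (mK A L).det * A (Pi.single k 1) a := by
  have h := congrFun (Matrix.mulVec_cramer (mK A L) (A (Pi.single k 1))) a
  rw [Matrix.mulVec, dotProduct] at h
  simp only [Matrix.cramer_apply, Pi.smul_apply, smul_eq_mul] at h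
  rw [← h]
  refine Finset.sum_congr rfl fun c _ => ?_
  rw [mK_update, mul_comm]

theorem clm_sum {p : ℕ} (lam : Cm p →L[ℂ] ℂ) (v : Cm p) :
    lam v = ∑ a, lam (Pi.single a 1) * v a := by
  have h4 : v = ∑ a : Fin p, v a • Pi.single a (1 : ℂ) := by
    funext i
    simp [Finset.sum_apply, Pi.single_apply]
  conv_lhs => rw [h4]
  rw [map_sum]
  refine Finset.sum_congr rfl fun a _ => ?_
  rw [map_smul, smul_eq_mul, mul_comm]

/-- Cramer's expression vanishes on the span of the rows. -/
theorem cram_tq {μ p n : ℕ} (A : Cm n →L[ℂ] Cm p) (lam : Cm p →L[ℂ] ℂ) (I : Fin (μ * p) → Fin n)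
    (s : Fin μ) (k : Fin n) :
    cram (tq μ A) (fun k => lam (A (Pi.single k 1))) I s k = 0 := by
  unfold cram
  rw [tq_eq_mul A I s]
  have h1 : ∀ c : Fin p, tq μ A (Function.update I (finProdFinEquiv (s, c)) k) *
      lam (A (Pi.single (I (finProdFinEquiv (s, c))) 1)) =
      (∏ r ∈ Finset.univ.erase s, (mK A (blk I r)).det) * ∑ a, lam (Pi.single a 1) *
        ((mK A (Function.update (blk I s) c k)).det * mK A (blk I s) a c) := by
    intro c
    rw [tq_update, clm_sum lam (A (Pi.single (I (finProdFinEquiv (s, c))) 1)), mul_assoc,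
      Finset.mul_sum]
    congr 1
    refine Finset.sum_congr rfl fun a _ => ?_
    have h2 : mK A (blk I s) a c = A (Pi.single (I (finProdFinEquiv (s, c))) 1) a := rfl
    rw [h2]
    ring
  rw [Finset.sum_congr rfl fun c _ => h1 c, ← Finset.mul_sum, Finset.sum_comm]
  have h3 : ∀ a : Fin p, ∑ c, lam (Pi.single a 1) *
      ((mK A (Function.update (blk I s) c k)).det * mK A (blk I s) a c) =
      lam (Pi.single a 1) * ((mK A (blk I s)).det * A (Pi.single k 1) a) := by
    intro a
    rw [← Finset.mul_sum, cramer_col]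
  rw [Finset.sum_congr rfl fun a _ => h3 a]
  beta_reduce
  rw [clm_sum lam (A (Pi.single k 1)), mul_assoc, ← mul_sub]
  refine mul_eq_zero_of_right _ ?_
  rw [sub_eq_zero, Finset.mul_sum]
  refine Finset.sum_congr rfl fun a _ => ?_
  ring

/-- If `a` is a nonzero multiple of the tensor `tq μ A`, then Cramer's expression is the component
of `ρ` transversal to the span of the rows of `A`. -/
theorem exists_lam {μ p n : ℕ} {A : Cm n →L[ℂ] Cm p} {a : (Fin (μ * p) → Fin n) → ℂ} {c : ℂ}
    (ha : ∀ I, a I = c * tq μ A I) {I : Fin (μ * p) → Fin n} (h0 : a I ≠ 0) (s : Fin μ)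
    (ρ : Fin n → ℂ) : ∃ l : Fin p → ℂ, ∀ k, ρ k - ∑ j, l j * mat A j k =
      (a I)⁻¹ * cram a ρ I s k := by
  have hc : c ≠ 0 := fun h => h0 (by rw [ha, h, zero_mul])
  have htq : tq μ A I ≠ 0 := fun h => h0 (by rw [ha, h, mul_zero])
  rw [tq_eq_mul A I s] at htq
  have hP := left_ne_zero_of_mul htq
  have hM := right_ne_zero_of_mul htq
  set P := ∏ r ∈ Finset.univ.erase s, (mK A (blk I r)).det with hPd
  set M := mK A (blk I s) with hMd
  have hMu : IsUnit M.det := isUnit_iff_ne_zero.2 hM
  set l : Fin p → ℂ := Matrix.vecMul (fun c => ρ (blk I s c)) M⁻¹ with hl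
  have hlM : ∀ c, ∑ j, l j * M j c = ρ (blk I s c) := by
    intro c
    have h1 : Matrix.vecMul l M = fun c => ρ (blk I s c) := by
      rw [hl, Matrix.vecMul_vecMul, Matrix.nonsing_inv_mul _ hMu, Matrix.vecMul_one]
    exact congrFun h1 c
  refine ⟨l, fun k => ?_⟩
  have h3 : a I * ∑ j, l j * mat A j k = ∑ c' : Fin p,
      a (Function.update I (finProdFinEquiv (s, c')) k) * ρ (I (finProdFinEquiv (s, c'))) := by
    have h4 : ∀ c' : Fin p, a (Function.update I (finProdFinEquiv (s, c')) k) *
        ρ (I (finProdFinEquiv (s, c'))) = c * P * ∑ j, l j *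
          ((mK A (Function.update (blk I s) c' k)).det * M j c') := by
      intro c'
      have h5 : ρ (I (finProdFinEquiv (s, c'))) = ∑ j, l j * M j c' := (hlM c').symm
      rw [ha, tq_update, h5, Finset.mul_sum, Finset.mul_sum]
      refine Finset.sum_congr rfl fun j _ => ?_
      ring
    rw [Finset.sum_congr rfl fun c' _ => h4 c', ← Finset.mul_sum, Finset.sum_comm]
    have h6 : ∀ j : Fin p, ∑ c', l j * ((mK A (Function.update (blk I s) c' k)).det * M j c') =
        l j * (M.det * mat A j k) := by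
      intro j
      rw [← Finset.mul_sum, hMd, cramer_col]
      rfl
    rw [Finset.sum_congr rfl fun j _ => h6 j, ha, tq_eq_mul A I s, Finset.mul_sum, Finset.mul_sum]
    refine Finset.sum_congr rfl fun j _ => ?_
    ring
  unfold cram
  rw [← h3, eq_inv_mul_iff_mul_eq₀ h0, mul_sub]

theorem cram_add {μ p n : ℕ} (a : (Fin (μ * p) → Fin n) → ℂ) (ρ ρ' : Fin n → ℂ)
    (I : Fin (μ * p) → Fin n) (s : Fin μ) (k : Fin n) :
    cram a (fun k => ρ k + ρ' k) I s k = cram a ρ I s k + cram a ρ' I s k := by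
  unfold cram
  simp only [mul_add, Finset.sum_add_distrib]
  ring

theorem cram_smul {μ p n : ℕ} (a : (Fin (μ * p) → Fin n) → ℂ) (ρ : Fin n → ℂ) (t : ℂ)
    (I : Fin (μ * p) → Fin n) (s : Fin μ) (k : Fin n) :
    cram a (fun k => t * ρ k) I s k = t * cram a ρ I s k := by
  unfold cram
  rw [mul_sub, Finset.mul_sum]
  congr 1
  · ring
  · exact Finset.sum_congr rfl fun c _ => by ring

theorem cram_smul_left {μ p n : ℕ} (a : (Fin (μ * p) → Fin n) → ℂ) (ρ : Fin n → ℂ) (t : ℂ)
    (I : Fin (μ * p) → Fin n) (s : Fin μ) (k : Fin n) :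
    cram (fun I => t * a I) ρ I s k = t * cram a ρ I s k := by
  unfold cram
  rw [mul_sub, Finset.mul_sum]
  congr 1
  · ring
  · exact Finset.sum_congr rfl fun c _ => by ring

end Vale.Agent.P281.H498
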