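import Vale.Agent.P281.H498.KD.TKI
import Vale.Agent.P281.H498.KD.Lin

/-! P281, theorem KD, block TK: local form of the tensors and of their norms. -/

open scoped Manifold ContDiff Topology ComplexOrder
open Set Filter Metric Asymptotics Vale.Agent.P272.K

noncomputable section

namespace Vale.Agent.P281.H498

open Vale.Agent.P281 Vale.Agent.P281.MF Vale.Agent.P281.ISO Vale.Agent.P281.H713.SA
open Vale.Agent.P281.H716 Vale.Agent.P299.D Vale.Agent.P281.H787 Vale.Agent.P281.H713.KD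

set_option linter.unusedSectionVars false

section Inv

open Classical in
/-- the inverse of `j` -/
def jinv {X Z : Type} (j : Z → X) (z₀ : Z) (x : X) : Z :=
  if h : ∃ z, j z = x then h.choose else z₀

theorem jinv_j {X Z : Type} {j : Z → X} (hj : Function.Injective j) (z₀ w : Z) :
    jinv j z₀ (j w) = w := by
  have h : ∃ z, j z = j w := ⟨w, rfl⟩
  unfold jinv
  rw [dif_pos h]
  exact hj h.choose_spec

end Inv

variable {n p M μ : ℕ} {X Z Y : Type} [TopologicalSpace X]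
  [ChartedSpace (Cm n) X] [IsManifold 𝓘(ℂ, Cm n) ω X]
  [TopologicalSpace Z] [ChartedSpace (Cm n) Z] [IsManifold 𝓘(ℂ, Cm n) ω Z]
  [TopologicalSpace Y] [ChartedSpace (Cm p) Y] [IsManifold 𝓘(ℂ, Cm p) ω Y]
  {j : Z → X} {f : Z → Y} {S : Set Y} {Dv : Fin M → Set X} {K : Fin M → ℕ}
  {r : Fin M → X → ℝ} {R : Fin M → FormM n X}

theorem H954ev {e : Chart n X} {x : X} (hx : At e x) :
    ∀ᶠ z in 𝓝 (e x), At e (e.symm z) ∧ e (e.symm z) = z := by
  filter_upwards [e.open_target.mem_nhds (e.map_source hx.2)] with z hz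
  exact ⟨⟨hx.1, e.map_target hz⟩, e.right_inv hz⟩

/-- the common hypotheses on `j`, `f`, `S`, `Dv` -/
structure Setup (n p : ℕ) {M : ℕ} {X Z Y : Type} [TopologicalSpace X]
    [ChartedSpace (Cm n) X] [TopologicalSpace Z] [ChartedSpace (Cm n) Z]
    [TopologicalSpace Y] [ChartedSpace (Cm p) Y] (j : Z → X) (f : Z → Y) (S : Set Y)
    (Dv : Fin M → Set X) : Prop where
  hj : ∀ z, HolM (Cm n) (Cm n) j z
  emb : Topology.IsOpenEmbedding j
  inj : ∀ z, Function.Injective (dM (Cm n) (Cm n) j z)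
  hf : ∀ z, HolM (Cm n) (Cm p) f z
  closedS : IsClosed S
  dense : Dense {x | (∃ z, j z = x ∧ f z ∉ S) ∧ ∀ i, x ∉ Dv i}
  closedD : ∀ i, IsClosed (Dv i)
  denseD : Dense {x | ∀ i, x ∉ Dv i}

/-- transport of holomorphic functions to the charts of `X` -/
theorem analytic_jinv (hs : Setup n p j f S Dv) {e : Chart n X} {z : Z} (h : At e (j z))
    {Q : Z → ℂ} (hQ : HolV (Cm n) Q z) :
    AnalyticAt ℂ (fun y => Q (jinv j z (e.symm y))) (e (j z)) := by
  have h1 : HolV (Cm n) (fun x => Q (jinv j z x)) (j z) := by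
    refine holV_of_comp (hs.hj z) (hs.inj z) ?_
    have h2 : (fun w => Q (jinv j z (j w))) = Q := by
      funext w
      rw [jinv_j hs.emb.injective]
    rw [h2]
    exact hQ
  exact analyticAt_symm h h1

/-- points near `e (j z)` come from points near `z` -/
theorem ev_jinv (hs : Setup n p j f S Dv) {e : Chart n X} {z : Z} (h : At e (j z))
    {P : Z → Prop} (hP : ∀ᶠ w in 𝓝 z, P w) :
    ∀ᶠ y in 𝓝 (e (j z)), ∃ w, P w ∧ e.symm y = j w ∧ e (j w) = y ∧ jinv j z (e.symm y) = w ∧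
      At e (j w) := by
  have hsymm : Tendsto e.symm (𝓝 (e (j z))) (𝓝 (j z)) := by
    have := (e.continuousAt_symm (e.map_source h.2)).tendsto
    rwa [e.left_inv h.2] at this
  have h1 : ∀ᶠ x in 𝓝 (j z), ∃ w, P w ∧ j w = x := by
    rw [← hs.emb.map_nhds_eq z, eventually_map]
    exact hP.mono fun w hw => ⟨w, hw, rfl⟩
  filter_upwards [hsymm.eventually h1, e.open_target.mem_nhds (e.map_source h.2)] with y hy hyt
  obtain ⟨w, hw, hwy⟩ := hy
  refine ⟨w, hw, hwy.symm, ?_, ?_, h.1, ?_⟩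
  · rw [hwy, e.right_inv hyt]
  · rw [← hwy, jinv_j hs.emb.injective]
  · rw [hwy]
    exact e.map_target hyt

/-- the differential of `f`, in the chart `e` of `X` and the chart of `Y` at `f z₀` -/
def Am (n p : ℕ) {X Z Y : Type} [TopologicalSpace X] [ChartedSpace (Cm n) X] [TopologicalSpace Z]
    [ChartedSpace (Cm n) Z] [TopologicalSpace Y] [ChartedSpace (Cm p) Y] (j : Z → X) (f : Z → Y)
    (e : Chart n X) (z₀ : Z) (w : Z) : Cm n →L[ℂ] Cm p :=
  (dV (Cm n) (fun w => (chartAt (Cm p) (f z₀) : Y → Cm p) (f w)) w).comp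
    (Ring.inverse (dV (Cm n) (fun w => e (j w)) w))

/-- its matrix, as a function of the coordinates -/
def bm (n p : ℕ) {X Z Y : Type} [TopologicalSpace X] [ChartedSpace (Cm n) X] [TopologicalSpace Z]
    [ChartedSpace (Cm n) Z] [TopologicalSpace Y] [ChartedSpace (Cm p) Y] (j : Z → X) (f : Z → Y)
    (e : Chart n X) (z₀ : Z) (y : Cm n) : Matrix (Fin p) (Fin n) ℂ :=
  mat (Am n p j f e z₀ (jinv j z₀ (e.symm y)))

theorem holV_Am (hs : Setup n p j f S Dv) {e : Chart n X} {z₀ : Z} (h : At e (j z₀)) :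
    HolV (Cm n) (Am n p j f e z₀) z₀ :=
  holV_quot (HolV.comp (h := (chartAt (Cm p) (f z₀) : Y → Cm p))
    (HolV.chart (mem_chart_source (Cm p) (f z₀))) (hs.hf z₀)) (holV_ej hs.hj h)
    (isUnit_ej hs.hj hs.inj h)

theorem bm_analytic (hs : Setup n p j f S Dv) {e : Chart n X} {z₀ : Z} (h : At e (j z₀))
    (a : Fin p) (l : Fin n) : AnalyticAt ℂ (fun y => bm n p j f e z₀ y a l) (e (j z₀)) := by
  have h1 : HolV (Cm n) (fun w => Am n p j f e z₀ w (Pi.single l 1) a) z₀ := by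
    refine HolV.comp_contDiff (G := fun A : Cm n →L[ℂ] Cm p => A (Pi.single l 1) a) ?_
      (holV_Am hs h)
    exact ((ContinuousLinearMap.proj (R := ℂ) (φ := fun _ : Fin p => ℂ) a).contDiff.comp
      (ContinuousLinearMap.apply ℂ (Cm p) (Pi.single l (1 : ℂ) : Cm n)).contDiff).contDiffAt
  exact analytic_jinv hs h h1

/-- `s` is, off `S`, a local section of `μ K_Y` -/
def IsSec (p μ : ℕ) {Y : Type} [TopologicalSpace Y] [ChartedSpace (Cm p) Y] (S : Set Y)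
    (s : Y → ℂ) : Prop :=
  ∀ y ∉ S, ∃ A : Y → ℂ, HolV (Cm p) A y ∧
    ∀ᶠ y' in 𝓝 y, s y' = A y' * jac (Cm p) (chartAt (Cm p) y : Y → Cm p) y' ^ μ

theorem exists_coef (hs : Setup n p j f S Dv) {s : Y → ℂ} (hsec : IsSec p μ S s) {z₀ : Z}
    (hz : f z₀ ∉ S) : ∃ C : Z → ℂ, HolV (Cm n) C z₀ ∧
      s (f z₀) = C z₀ * jac (Cm p) (chartAt (Cm p) (f z₀) : Y → Cm p) (f z₀) ^ μ ∧
      ∀ᶠ w in 𝓝 z₀, ∀ e : Chart n X, ∀ I, s (f w) * tT f μ (fun z => e (j z)) I w =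
        C w * tq μ (Am n p j f e z₀ w) I := by
  obtain ⟨A, hA, hAe⟩ := hsec (f z₀) hz
  have hfc : ContinuousAt f z₀ := (hs.hf z₀).continuousAt
  refine ⟨fun w => A (f w), HolV.comp (E' := Cm p) hA (hs.hf z₀), ?_, ?_⟩
  · exact hAe.self_of_nhds
  · filter_upwards [hfc.eventually hAe, hfc.eventually ((chartAt (Cm p) (f z₀)).open_source.mem_nhds
      (mem_chart_source (Cm p) (f z₀)))] with w hw hws e I
    have h1 := jac_tq (hs.hf w) hws μ (Ring.inverse (dV (Cm n) (fun z => e (j z)) w)) I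
    unfold tT Am
    rw [← h1, hw]
    ring

/-- the tensor `τ` is the pull-back of `s` -/
def IsPull {n M : ℕ} (p μ : ℕ) {X Z Y : Type} [TopologicalSpace X] [ChartedSpace (Cm n) X]
    [TopologicalSpace Z] [ChartedSpace (Cm n) Z] [TopologicalSpace Y] [ChartedSpace (Cm p) Y]
    (j : Z → X) (f : Z → Y) (S : Set Y) (Dv : Fin M → Set X) (s : Y → ℂ)
    (τ : Ten n (μ * p) X) : Prop :=
  ∀ e z, At e (j z) → f z ∉ S → (∀ i, j z ∉ Dv i) → ∀ I,
    τ e (e (j z)) I = s (f z) * tT f μ (fun z => e (j z)) I z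

theorem eqs_exist (hR : IsBd Dv r R) {e : Chart n X} {x : X} (h : At e x) :
    ∃ g ψ, IsEqs Dv e x g ∧ IsWts r e x g ψ := by
  obtain ⟨g, ψ, h1, h2, h3, -, h5⟩ := hR.loc e x h
  exact ⟨g, ψ, ⟨h1, h3⟩, h2, h5.mono fun z hz i => (hz i).1⟩

theorem IsEqs.ne {e : Chart n X} {x : X} {g : Fin M → Cm n → ℂ} (h : IsEqs Dv e x g)
    (hx : ∀ i, x ∉ Dv i) : ∀ᶠ y in 𝓝 (e x), ∀ i, g i y ≠ 0 := by
  refine eventually_all.2 fun i => (h.1 i).continuousAt.eventually_ne fun h0 => hx i ?_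
  exact (IsLocalEq.mem_iff (h.2 i)).2 h0

/-- the factor between the numerator and `tq` -/
theorem num_eq (hs : Setup n p j f S Dv) {s : Y → ℂ} {τ : Ten n (μ * p) X}
    (hp : IsPull p μ j f S Dv s τ) {C : Z → ℂ} {z₀ : Z}
    (hC : ∀ᶠ w in 𝓝 z₀, ∀ e : Chart n X, ∀ I, s (f w) * tT f μ (fun z => e (j z)) I w =
        C w * tq μ (Am n p j f e z₀ w) I) (hz : f z₀ ∉ S) {e : Chart n X} (h : At e (j z₀))
    {g : Fin M → Cm n → ℂ} {a : (Fin (μ * p) → Fin n) → Cm n → ℂ}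
    (hg : IsEqs Dv e (j z₀) g) (ha : IsNum K τ e (j z₀) g a) :
    ∀ᶠ y in 𝓝 (e (j z₀)), (∀ i, g i y ≠ 0) → ∀ I, a I y =
      (C (jinv j z₀ (e.symm y)) * ∏ i, g i y ^ K i) *
        tq μ (Am n p j f e z₀ (jinv j z₀ (e.symm y))) I := by
  have hfc : ContinuousAt f z₀ := (hs.hf z₀).continuousAt
  have hgm : ∀ᶠ y in 𝓝 (e (j z₀)), ∀ i, e.symm y ∈ Dv i → g i y = 0 := by
    refine eventually_all.2 fun i => ?_
    have h1 := (IsLocalEq.eventually (hg.2 i)).mono fun y hy => IsLocalEq.mem_iff hy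
    have hsymm : Tendsto e.symm (𝓝 (e (j z₀))) (𝓝 (j z₀)) := by
      have := (e.continuousAt_symm (e.map_source h.2)).tendsto
      rwa [e.left_inv h.2] at this
    filter_upwards [hsymm.eventually h1, e.open_target.mem_nhds (e.map_source h.2)] with y hy hyt
      hyD
    have h2 := hy.1 hyD
    simpa only [e.right_inv hyt] using h2
  filter_upwards [ha.2, hgm, ev_jinv hs h (hC.and (hfc.eventually
    (hs.closedS.isOpen_compl.mem_nhds hz)))] with y hy hyg hw hne I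
  obtain ⟨w, ⟨hw1, hw2⟩, hw3, hw4, hw5, hw6⟩ := hw
  rw [← hy hne I, hw5]
  have h3 := hp e w hw6 hw2 (fun i hi => hne i (hyg i (by rw [hw3]; exact hi))) I
  rw [hw4, hw1 e I] at h3
  rw [h3]
  ring

theorem nsq_smul {q : ℕ} (w : Matrix (Fin n) (Fin n) ℂ) (t : ℂ) (a : (Fin q → Fin n) → ℂ) :
    nsq w (fun I => t * a I) = ‖t‖ ^ 2 * nsq w a := by
  unfold nsq
  have h1 : ((‖t‖ ^ 2 : ℝ) : ℂ) = t * (starRingEnd ℂ) t := by
    rw [Complex.mul_conj, Complex.normSq_eq_norm_sq]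
  have h2 : ∑ I, ∑ J, t * a I * (starRingEnd ℂ) (t * a J) * ∏ i, w⁻¹ (J i) (I i) =
      ((‖t‖ ^ 2 : ℝ) : ℂ) * ∑ I, ∑ J, a I * (starRingEnd ℂ) (a J) * ∏ i, w⁻¹ (J i) (I i) := by
    rw [h1, Finset.mul_sum]
    refine Finset.sum_congr rfl fun I _ => ?_
    rw [Finset.mul_sum]
    refine Finset.sum_congr rfl fun J _ => ?_
    rw [map_mul]
    ring
  rw [h2, Complex.re_ofReal_mul]

/-- **local form of the norm** -/
theorem norm_form (gram : GramPart) (hs : Setup n p j f S Dv) (hR : IsBd Dv r R) {s : Y → ℂ}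
    {τ : Ten n (μ * p) X} (hK : IsTenK Dv K τ)
    (hp : IsPull p μ j f S Dv s τ) {N : FormM n X → X → ℝ}
    (hN : IsNorm Dv r K τ (((p.factorial : ℝ) ^ μ)⁻¹) N) {C : Z → ℂ} {z₀ : Z}
    (hC : ∀ᶠ w in 𝓝 z₀, ∀ e : Chart n X, ∀ I, s (f w) * tT f μ (fun z => e (j z)) I w =
        C w * tq μ (Am n p j f e z₀ w) I) (hz : f z₀ ∉ S) (hzD : ∀ i, j z₀ ∉ Dv i)
    {e : Chart n X} (h : At e (j z₀)) {G : FormM n X} (hG : IsKahler G) :
    ∀ᶠ y in 𝓝 (e (j z₀)), N G (e.symm y) = ‖C (jinv j z₀ (e.symm y))‖ ^ 2 *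
      (∏ i, r i (e.symm y) ^ K i) * gramD (bm n p j f e z₀ y) (G e y) ^ μ := by
  obtain ⟨g, ψ, hg, hψ⟩ := eqs_exist hR h
  obtain ⟨a, ha⟩ := hK.num e _ h g hg
  filter_upwards [hN.loc G e _ g ψ a hG h hg hψ ha, num_eq hs hp hC hz h hg ha, hg.ne hzD, hψ.2,
    H954ev h] with y h1 h2 h3 h4 h5
  have hpos : (G e y).PosDef := by
    have := hG.toIsHermitian.posDef e _ h5.1
    rwa [h5.2] at this
  have h6 : (fun I => a I y) = fun I => (C (jinv j z₀ (e.symm y)) * ∏ i, g i y ^ K i) *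
        tq μ (Am n p j f e z₀ (jinv j z₀ (e.symm y))) I := by
    funext I
    exact h2 h3 I
  rw [h1, h6, gram n p μ (G e y) hpos]
  have hf0 : ((p.factorial : ℝ) ^ μ) ≠ 0 := pow_ne_zero _ (by exact_mod_cast p.factorial_ne_zero)
  have h7 : ∏ i, r i (e.symm y) ^ K i = ‖∏ i, g i y ^ K i‖ ^ 2 *
      ∏ i, Real.exp (-(K i * ψ i y)) := by
    rw [norm_prod, ← Finset.prod_pow, ← Finset.prod_mul_distrib]
    refine Finset.prod_congr rfl fun i _ => ?_
    rw [h4 i, mul_pow, norm_pow, ← Real.exp_nat_mul]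
    congr 1
    · ring
    · congr 1
      ring
  have h8 : mat (Am n p j f e z₀ (jinv j z₀ (e.symm y))) = bm n p j f e z₀ y := rfl
  rw [h7, h8, norm_mul]
  field_simp

/-- the zeros of the divisors are thin -/
theorem eqs_frequently (hs : Setup n p j f S Dv) {e : Chart n X} {x : X} (h : At e x)
    {g : Fin M → Cm n → ℂ} (hg : IsEqs Dv e x g) :
    ∀ᶠ y in 𝓝 (e x), ∃ᶠ y' in 𝓝 y, ∀ i, g i y' ≠ 0 := by
  have hsymm : Tendsto e.symm (𝓝 (e x)) (𝓝 x) := by
    have := (e.continuousAt_symm (e.map_source h.2)).tendsto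
    rwa [e.left_inv h.2] at this
  have hev : ∀ᶠ y in 𝓝 (e x), ∀ i, g i y = 0 → e.symm y ∈ Dv i := by
    refine eventually_all.2 fun i => ?_
    have h1 := (IsLocalEq.eventually (hg.2 i)).mono fun y hy => IsLocalEq.mem_iff hy
    filter_upwards [hsymm.eventually h1, e.open_target.mem_nhds (e.map_source h.2)] with y hy hyt
      hyD
    exact hy.2 (by simpa only [e.right_inv hyt] using hyD)
  filter_upwards [hev.eventually_nhds, e.open_target.mem_nhds (e.map_source h.2)] with y hy hyt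
  have h2 : ∃ᶠ x' in 𝓝 (e.symm y), ∀ i, x' ∉ Dv i :=
    mem_closure_iff_frequently.1 (hs.denseD (e.symm y))
  have h3 : Tendsto e (𝓝 (e.symm y)) (𝓝 y) := by
    have := (e.continuousAt (e.map_target hyt)).tendsto
    rwa [e.right_inv hyt] at this
  have h4 : ∃ᶠ x' in 𝓝 (e.symm y), ∀ i, g i (e x') ≠ 0 := by
    refine (h2.and_eventually ((h3.eventually hy).and
      (e.open_source.mem_nhds (e.map_target hyt)))).mono ?_
    rintro x' ⟨h5, h6, h7⟩ i h8
    exact h5 i (by simpa only [e.left_inv h7] using h6 i h8)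
  exact h3.frequently h4

/-- if `K i` is the exact order of the poles, `Dv i` is over `S` -/
theorem over_S (hs : Setup n p j f S Dv) (hR : IsBd Dv r R) {s₀ s₁ : Y → ℂ}
    {τ₀ τ₁ : Ten n (μ * p) X} (hK₀ : IsTenK Dv K τ₀) (hK₁ : IsTenK Dv K τ₁)
    (hsec₀ : IsSec p μ S s₀) (hsec₁ : IsSec p μ S s₁)
    (hp₀ : IsPull p μ j f S Dv s₀ τ₀) (hp₁ : IsPull p μ j f S Dv s₁ τ₁) (i : Fin M)
    (hi : K i ≠ 0)
    (hex : ∀ e x, At e x → x ∈ Dv i → ∀ g a₀ a₁, IsEqs Dv e x g →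
      IsNum K τ₀ e x g a₀ → IsNum K τ₁ e x g a₁ →
      ¬ ∀ᶠ y in 𝓝 x, y ∈ Dv i → (∀ I, a₀ I (e y) = 0) ∧ ∀ I, a₁ I (e y) = 0)
    {z : Z} (hz : j z ∈ Dv i) : f z ∈ S := by
  by_contra hzS
  set e : Chart n X := chartAt (Cm n) (j z) with he
  have h : At e (j z) := AMP.at_chartAt (j z)
  obtain ⟨g, ψ, hg, -⟩ := eqs_exist hR h
  obtain ⟨a₀, ha₀⟩ := hK₀.num e _ h g hg
  obtain ⟨a₁, ha₁⟩ := hK₁.num e _ h g hg
  refine hex e _ h hz g a₀ a₁ hg ha₀ ha₁ ?_
  have key : ∀ {s : Y → ℂ} {τ : Ten n (μ * p) X} (_ : IsTenK Dv K τ) (_ : IsSec p μ S s)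
      (_ : IsPull p μ j f S Dv s τ) {a : (Fin (μ * p) → Fin n) → Cm n → ℂ}
      (_ : IsNum K τ e (j z) g a), ∀ᶠ y in 𝓝 (j z), y ∈ Dv i → ∀ I, a I (e y) = 0 := by
    intro s τ hK hsec hp a ha
    obtain ⟨C, hC, -, hCe⟩ := exists_coef (X := X) (j := j) (Dv := Dv) hs hsec hzS
    have h1 := num_eq hs hp hCe hzS h hg ha
    have hCa := analytic_jinv hs h hC
    have hga : AnalyticAt ℂ (fun y => ∏ i, g i y ^ K i) (e (j z)) :=
      Finset.analyticAt_fun_prod _ fun i _ => (hg.1 i).fun_pow _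
    have hta : ∀ I, AnalyticAt ℂ (fun y => tq μ (Am n p j f e z (jinv j z (e.symm y))) I)
        (e (j z)) := fun I => analytic_jinv hs h (holV_tq μ (holV_Am hs h) I)
    have hcont : ∀ᶠ y in 𝓝 (e (j z)), ∀ I, a I y =
        (C (jinv j z (e.symm y)) * ∏ i, g i y ^ K i) *
          tq μ (Am n p j f e z (jinv j z (e.symm y))) I := by
      refine eventually_all.2 fun I => ?_
      filter_upwards [h1.eventually_nhds, eqs_frequently hs h hg,
        hCa.eventually_analyticAt, hga.eventually_analyticAt, (hta I).eventually_analyticAt,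
        (ha.1 I).eventually_analyticAt] with y h2 h3 h4 h5 h6 h7
      by_contra hcon
      have h8 : ContinuousAt (fun y => a I y - (C (jinv j z (e.symm y)) * ∏ i, g i y ^ K i) *
          tq μ (Am n p j f e z (jinv j z (e.symm y))) I) y :=
        h7.continuousAt.sub ((h4.continuousAt.mul h5.continuousAt).mul h6.continuousAt)
      have h9 := h8.eventually_ne (sub_ne_zero.2 hcon)
      obtain ⟨y', hy1, hy2, hy3⟩ := (h3.and_eventually (h2.and h9)).exists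
      exact hy3 (sub_eq_zero.2 (hy2 hy1 I))
    have htend : Tendsto e (𝓝 (j z)) (𝓝 (e (j z))) := (e.continuousAt h.2).tendsto
    have hgi := (IsLocalEq.eventually (hg.2 i)).mono fun y hy => IsLocalEq.mem_iff hy
    filter_upwards [htend.eventually hcont, hgi] with y h2 h3 hyD I
    rw [h2 I]
    have h4 : g i (e y) = 0 := h3.1 hyD
    have h5 : ∏ i, g i (e y) ^ K i = 0 :=
      Finset.prod_eq_zero (Finset.mem_univ i) (by rw [h4, zero_pow hi])
    rw [h5, mul_zero, zero_mul]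
  filter_upwards [key hK₀ hsec₀ hp₀ ha₀, key hK₁ hsec₁ hp₁ ha₁] with y h1 h2 hy
  exact ⟨h1 hy, h2 hy⟩

end Vale.Agent.P281.H498
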