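import Vale.Agent.P281.H498.KD.Fin
import Vale.Agent.P281.H498.KD.Gram
import Vale.Agent.P281.H787.KDK
import Vale.Agent.P281.H787.KDE
import Vale.Agent.P281.H787.KDN

/-! P281, theorem KD, block TK: conclusion. -/

namespace Vale.Agent.P281.H498

open Vale.Agent.P281.H713.KD

/-- the block TK, without the hypothesis `Δ D < 1` -/
theorem tenPartK' : TenPartK' :=
  tenPartK'_of H787.KD.normPart gramPart H787.KD.exactPart H787.KD.keyPart

/-- **Block TK of theorem KD**. -/
theorem tenPartK : TenPartK :=
  tenPartK_of H787.KD.normPart gramPart H787.KD.exactPart H787.KD.keyPart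

end Vale.Agent.P281.H498
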